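import Mathlib

/-!
# Row 334 (helper86): the transfer engine `TL`, `BP`, `LC` (notes h86-3, h86-4) — definitions

A configuration is any `w : V → ℂ`; the diagonal entry at `x` is `cl (w x) - η i`, so the real part
of `w x` is the potential (energy subtracted) and `|Im (w x)|` is the active damping `γ_x`.
-/

set_option autoImplicit false

open MeasureTheory Complex Finset Function
open scoped ENNReal

namespace Crest.Agent.N334.T

/-- reflection into the closed lower half plane -/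
def cl (z : ℂ) : ℂ := ⟨z.re, -|z.im|⟩

/-- `log⁻`, with the value `⊤` at `0` -/
noncomputable def nlog (s : ℝ) : ℝ≥0∞ := if s = 0 then ⊤ else ENNReal.ofReal (-Real.log s)

/-- Lebesgue measure on the segment `[a - l, a + l] - i g` -/
noncomputable def seg (a l g : ℝ) : Measure ℂ :=
  (volume.restrict (Set.Icc (a - l) (a + l))).map fun s : ℝ => (s : ℂ) - g * I

/-- weighted small ball bound -/
def U2 (μ : Measure ℂ) (r : ℂ) (Λ : ℝ) : Prop :=
  ∀ a l : ℝ, 0 ≤ l → ∫⁻ z in {z : ℂ | |z.re - a| ≤ l},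
    ENNReal.ofReal (1 + ‖cl z - cl r‖ ^ 2) ∂μ ≤ ENNReal.ofReal (Λ * l)

/-- a site law with reference point `r` and badness `Λ` -/
structure Law0 (μ : Measure ℂ) (r : ℂ) (Λ : ℝ) : Prop where
  prob : IsProbabilityMeasure μ
  big : 100 ≤ Λ
  sig : Λ⁻¹ ≤ |r.im|
  nr : ‖r‖ ≤ Λ
  u2 : U2 μ r Λ
  u3 : ∀ s : ℝ, 0 < s → μ {z | s < ‖cl z - cl r‖} ≤ ENNReal.ofReal (Λ / s)

/-- a site law that is a harmonic measure of `r` up to the loss `κ` -/
structure Law (μ : Measure ℂ) (r : ℂ) (Λ κ : ℝ) : Prop extends Law0 μ r Λ where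
  la : ∀ b : ℂ, -κ ≤ ∫ z, Real.log ‖1 + (cl z - cl r) * b‖ ∂μ
  lb : ∀ m : ℂ, 0 < m.im → ∫ z, Real.log ‖(cl z - m) / (cl r - m)‖ ∂μ ≤ κ
  kle : κ ≤ 3 * Real.log Λ

variable {V : Type} [Fintype V] [DecidableEq V]

open scoped Classical in
/-- neighbours -/
noncomputable def nbr (G : SimpleGraph V) (x : V) : Finset V := univ.filter fun y => G.Adj x y

/-- degree at most four -/
def Deg (G : SimpleGraph V) : Prop := ∀ x, (nbr G x).card ≤ 4

/-- graph balls -/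
noncomputable def ball (G : SimpleGraph V) (x : V) : ℕ → Finset V
  | 0 => {x}
  | n + 1 => ball G x n ∪ (ball G x n).biUnion (nbr G)

/-- the matrix `A + diag (cl w) - η i` -/
noncomputable def Mx (G : SimpleGraph V) (η : ℝ) (w : V → ℂ) : Matrix V V ℂ :=
  Matrix.of (fun x y => if y ∈ nbr G x then 1 else 0) + Matrix.diagonal fun x => cl (w x) - η * I

/-- the Green function -/
noncomputable def Gr (G : SimpleGraph V) (η : ℝ) (w : V → ℂ) (x y : V) : ℂ := (Mx G η w)⁻¹ x y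

/-- total damping at a site -/
noncomputable def dmp (η : ℝ) (z : ℂ) : ℝ := η + |z.im|

/-- all edges at `S` are deleted -/
def cut (G : SimpleGraph V) (S : Finset V) : SimpleGraph V where
  Adj x y := G.Adj x y ∧ x ∉ S ∧ y ∉ S
  symm := ⟨fun _ _ h => ⟨h.1.symm, h.2.2, h.2.1⟩⟩
  loopless := ⟨fun _ h => G.irrefl h.1⟩

/-- the sites of `R` are frozen at `r` -/
def fz (r : V → ℂ) (R : Finset V) (w : V → ℂ) : V → ℂ := fun x => if x ∈ R then r x else w x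

/-- removed sites get the diagonal entry `-i` (for `η ≤ 1`) -/
noncomputable def rem (η : ℝ) (S : Finset V) (w : V → ℂ) : V → ℂ :=
  fz (fun _ => -((1 - η : ℝ) : ℂ) * I) S w

/-- Green function with `S` removed -/
noncomputable def GrR (G : SimpleGraph V) (η : ℝ) (S : Finset V) (w : V → ℂ) : V → V → ℂ :=
  Gr (cut G S) η (rem η S w)

/-- determinant with `S` removed -/
noncomputable def dt (G : SimpleGraph V) (η : ℝ) (S : Finset V) (w : V → ℂ) : ℂ :=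
  (Mx (cut G S) η (rem η S w)).det

/-- `det M^(T) / det M` -/
noncomputable def phi (G : SimpleGraph V) (η : ℝ) (T : Finset V) (w : V → ℂ) : ℂ :=
  dt G η T w / dt G η ∅ w

/-- the cavity data at `x` (they do not depend on `w x`) -/
structure Cav (G : SimpleGraph V) (η : ℝ) (w : V → ℂ) (x : V) (m : ℂ) (ρ : V → ℂ)
    (q : V → V → ℂ) : Prop where
  im_ge : η ≤ m.im
  rho_self : ρ x = 1
  rho_eq : ∀ p, p ≠ x → ρ p = -∑ n ∈ nbr G x, q p n
  m_eq : m = η * I - ∑ n ∈ nbr G x, ρ n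
  q_self : ∀ p, q p x = 0 ∧ q x p = 0
  q_eq : ∀ p p', p ≠ x → p' ≠ x → q p p' = GrR G η {x} w p p'
  ward : ∑ p ∈ univ.erase x, dmp η (w p) * ‖ρ p‖ ^ 2 ≤ m.im
  gr : ∀ z p p', Gr G η (update w x z) p p' = q p p' + ρ p * ρ p' / (cl z - m)
  det : ∀ z, dt G η ∅ (update w x z) = I * (cl z - m) * dt G η {x} w

/-- `P` is a path from `x` to `z` that can be stripped off from the end `x` -/
inductive Thread : SimpleGraph V → Finset V → V → V → Prop
  | nil (G : SimpleGraph V) (z : V) : Thread G {z} z z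
  | cons (G : SimpleGraph V) (P : Finset V) (x p z : V) : x ∉ P → nbr G x = {p} →
      Thread (cut G {x}) P p z → Thread G (insert x P) x z

/-- the invariant of the transfer recursion -/
def Inv (G : SimpleGraph V) (R : Finset V) (z x₀ : V) (l : ℕ) : Prop :=
  z ∈ R ∧ ∃ p : G.Walk z x₀, p.length ≤ l ∧
    ∀ q ∈ p.support, (q ≠ z → ball G q 1 ⊆ R) ∧ ball G q 2 ⊆ R ∪ ball G z 3

/-- a product environment -/
structure Env (V : Type) [Fintype V] [DecidableEq V] where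
  G : SimpleGraph V
  η : ℝ
  μ : V → Measure ℂ
  r : V → ℂ
  Λ : V → ℝ
  κ : V → ℝ
  deg : Deg G
  η0 : 0 < η
  η1 : η ≤ 1
  law : ∀ x, Law (μ x) (r x) (Λ x) (κ x)

instance (E : Env V) (x : V) : IsProbabilityMeasure (E.μ x) := (E.law x).prob

/-- `W` changes by a factor at most `exp k` when one site other than `b` changes -/
def Temp (W : (V → ℂ) → ℝ≥0∞) (b : V) (k : ℝ) : Prop :=
  Measurable W ∧ 0 ≤ k ∧ k ≤ 1 ∧
    ∀ w x z, x ≠ b → W (update w x z) ≤ ENNReal.ofReal (Real.exp k) * W w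

/-- weighted intensity at `y` of the wave sent from `b` -/
noncomputable def Rq (G : SimpleGraph V) (η : ℝ) (μ : V → Measure ℂ) (W : (V → ℂ) → ℝ≥0∞)
    (y b : V) : ℝ≥0∞ :=
  ∫⁻ w, W w * ENNReal.ofReal (‖Gr G η w y b‖ ^ 2) ∂Measure.pi μ

namespace Env

/-- the same with `R` frozen at the reference -/
noncomputable def Aq (E : Env V) (W : (V → ℂ) → ℝ≥0∞) (b : V) (R : Finset V) (z : V) : ℝ≥0∞ :=
  ∫⁻ w, W (fz E.r R w) * ENNReal.ofReal (‖Gr E.G E.η (fz E.r R w) z b‖ ^ 2) ∂Measure.pi E.μ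

/-- the badness grows at most exponentially around `x₀` -/
def Grow (E : Env V) (x₀ : V) (lam : ℝ) : Prop :=
  ∀ n : ℕ, ∀ x ∈ ball E.G x₀ n, Real.log (E.Λ x) ≤ lam * (n + 1)

/-- a priori bound used when the recursion meets the source -/
def HB (E : Env V) (W : (V → ℂ) → ℝ≥0∞) (b : V) (k : ℝ) (R₀ : Finset V) (Bb : ℝ≥0∞) : Prop :=
  ∀ R, R₀ ⊆ R → b ∉ R → ∀ z ∈ R,
    E.Aq W b R z ≤ ENNReal.ofReal (E.Λ z * Real.exp (k * R.card)) * Bb

end Env

/-- `(A + Re r) f` -/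
noncomputable def Lst (G : SimpleGraph V) (r : V → ℂ) (f : V → ℂ) (x : V) : ℂ :=
  (r x).re * f x + ∑ n ∈ nbr G x, f n

/-- A trapping block around `y`: `u` is an almost null vector, `win x` the window of the law at `x`,
`Z` the outer layer, `P` a polynomially large and `s` the small parameter (`δ = s ^ 4`).  The law
`E.μ y` is the narrow auxiliary law, `ν` is the true law of the active site `y`. -/
structure Block (E : Env V) (ν : Measure ℂ) (B Z : Finset V) (y : V) (u : V → ℂ) (win : V → ℝ)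
    (h γ P s lam : ℝ) (l : ℕ) : Prop where
  big : 1000 ≤ P
  s0 : 0 < s
  s1 : s ≤ (P ^ 3)⁻¹
  yB : y ∈ B
  yZ : y ∉ Z
  ZB : Z ⊆ B
  Zne : Z.Nonempty
  yfar : ∀ z ∈ Z, z ∉ nbr E.G y
  inner : ∀ x ∈ B \ Z, nbr E.G x ⊆ B
  card : (B.card : ℝ) ≤ P
  uy : u y = 1
  usupp : ∀ x, x ∉ B \ Z → u x = 0
  chiy : Lst E.G E.r u y = 0
  win0 : ∀ x ∈ B.erase y, E.η ≤ win x ∧ win x ≤ P
  sig : ∀ x ∈ B.erase y, win x / P ≤ |(E.r x).im| ∧ |(E.r x).im| ≤ win x
  chi : ∀ x ∈ B.erase y, (‖Lst E.G E.r u x‖ + 2 * win x * ‖u x‖) ^ 2 ≤ s ^ 8 * win x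
  lo : ∀ x ∈ B.erase y, ENNReal.ofReal (P * win x)⁻¹ • seg (E.r x).re (win x) 0 ≤ E.μ x
  hi : ∀ x ∈ B.erase y, E.μ x ≤ ENNReal.ofReal (P / win x) • seg (E.r x).re (win x) 0
  wide : ∀ z ∈ Z, ∀ x ∈ B.erase y, x = z ∨ x ∈ nbr E.G z → P⁻¹ ≤ win x
  obs : ∀ (f : V → ℂ) (g : ℝ), (∀ x, x ∉ B \ Z → f x = 0) → (∀ x ∈ B, ‖Lst E.G E.r f x‖ ≤ g) →
    ∃ c : ℂ, ∀ x ∈ B \ Z, ‖f x - c * u x‖ ≤ P * g
  h0 : P⁻¹ ≤ h
  h1 : h ≤ P
  γ0 : 0 ≤ γ
  γ1 : γ + E.η ≤ s ^ 8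
  ry : |(E.r y).im| = γ + P ^ 4 * s ^ 8
  νp : IsProbabilityMeasure ν
  νlo : ENNReal.ofReal P⁻¹ • seg (E.r y).re P⁻¹ γ ≤ ν
  sub : E.μ y ≤ ENNReal.ofReal (P / (P ^ 4 * s ^ 8)) • ν
  tgt : ∀ z ∈ Z, ∃ x₀ ∈ B \ Z, P ^ 6 * s ^ 4 ≤ ‖u x₀‖ ∧ Inv E.G B z x₀ l ∧ E.Grow x₀ lam

end Crest.Agent.N334.T
private theorem rz_1a6a3256cc : type_of% @_root_.Crest.Agent.N334.T.ball.eq_def := @_root_.Crest.Agent.N334.T.ball.eq_def -- L57
private theorem rz_03c4d6bb5d : type_of% @_root_.Crest.Agent.N334.T.ball.eq_1 := @_root_.Crest.Agent.N334.T.ball.eq_1 -- L57
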