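import Crest.Agent.N334.T.Cav
import Crest.Agent.N334.T.Log
import Crest.Agent.N334.T.Marg
import Crest.Agent.N334.T.Law
import Crest.Agent.N334.T.Mat

-- ▼ part N334/T/Lower
section

/-!
# Row 334, engine T: the conditional lower bound (leaf T-Lower)
-/

set_option autoImplicit false
set_option linter.unusedSectionVars false

open MeasureTheory Complex Finset Function
open scoped ENNReal

namespace Crest.Agent.N334.T

variable {V : Type} [Fintype V] [DecidableEq V] (E : Env V)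

namespace Lo

lemma ref_site (x p p' : V) {B : ℝ} (hB : E.η⁻¹ ≤ B) (w : V → ℂ) :
    ∫⁻ z, nlog (‖Gr E.G E.η (update w x z) p p'‖ / B) ∂E.μ x ≤
      nlog (‖Gr E.G E.η (update w x (E.r x)) p p'‖ / B) + ENNReal.ofReal (2 * E.κ x) := by
  obtain ⟨m, ρ, q, h⟩ := exists_cav (G := E.G) E.η0 E.η1 w x
  have e : ∀ z, Gr E.G E.η (update w x z) p p' =
      (q p p' * (cl (E.r x) - m) + ρ p * ρ p' + q p p' * (cl z - cl (E.r x))) / (cl z - m) :=
    fun z => by
      have := h.ne E.η0 z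
      rw [h.gr]; field_simp; ring
  have := (E.law x).ref (E.η0.trans_le h.im_ge) (q p p' * (cl (E.r x) - m) + ρ p * ρ p') (q p p')
    ((inv_pos.2 E.η0).trans_le hB) fun z => by
      rw [← e]; exact (norm_Gr_le E.η0 _ _ _).trans hB
  simp only [e, sub_self, mul_zero, add_zero]
  exact this

lemma top_site {S : Finset V} {n p p' : V} (hn : n ∉ S) (hp : p ≠ n) (hp' : p' ≠ n) {B : ℝ}
    (hB : 0 < B) (w : V → ℂ) :
    ∫⁻ z, nlog (‖GrR E.G E.η S (update w n z) p p' * phi E.G E.η S (update w n z)‖ / B) ∂E.μ n ≤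
      nlog (‖GrR E.G E.η (insert n S) (update w n (E.r n)) p p' *
        phi E.G E.η (insert n S) (update w n (E.r n))‖ / B) +
        ENNReal.ofReal (7 * Real.log (E.Λ n)) := by
  obtain ⟨m, ρ, q, h⟩ := exists_cav (G := E.G) E.η0 E.η1 w n
  obtain ⟨m', ρ', q', h'⟩ := exists_cav (G := cut E.G S) E.η0 E.η1 (rem E.η S w) n
  have hS : S ∪ {n} = insert n S := by rw [union_comm, ← insert_eq]
  have h4 := dt_ne (G := E.G) E.η0 {n} w
  set D := dt E.G E.η (insert n S) w / dt E.G E.η {n} w with hD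
  have e : ∀ z, GrR E.G E.η S (update w n z) p p' * phi E.G E.η S (update w n z) =
      ((q' p p' * (cl (E.r n) - m') + ρ' p * ρ' p') * D + q' p p' * D * (cl z - cl (E.r n))) /
        (cl z - m) := fun z => by
    have e1 : dt E.G E.η S (update w n z) = I * (cl z - m') * dt E.G E.η (insert n S) w := by
      rw [← hS, ← dt_cut, ← h'.det, ← rem_update_notMem hn, dt_cut, union_empty]
    have h1 := h.ne E.η0 z
    have h2 := h'.ne E.η0 z
    rw [GrR, rem_update_notMem hn, h'.gr, phi, e1, h.det, hD]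
    field_simp; ring
  have e2 : ‖GrR E.G E.η (insert n S) (update w n (E.r n)) p p' *
      phi E.G E.η (insert n S) (update w n (E.r n))‖ = ‖q' p p' * D / (cl (E.r n) - m)‖ := by
    rw [GrR_update_mem (mem_insert_self n S), phi, dt_update_mem (mem_insert_self n S), h.det,
      h'.q_eq p p' hp hp', GrR_cut, hS, hD]
    simp only [norm_mul, norm_div, norm_I, one_mul]
    ring
  simp only [e, e2]
  exact (E.law n).top (E.η0.trans_le h.im_ge) _ _ hB

lemma jun_site (x p p' : V) {B B' : ℝ} (hB : 0 < B) (hB' : 0 < B') (w : V → ℂ) :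
    ∫⁻ z, nlog (‖Gr E.G E.η (update w x z) p p'‖ / (B * B')) ∂E.μ x ≤
      ∫⁻ z, nlog (‖Gr E.G E.η (update w x z) p x‖ / B) ∂E.μ x +
        ∫⁻ z, nlog (‖Gr E.G E.η (update w x z) x p'‖ / B') ∂E.μ x +
          ENNReal.ofReal (7 * Real.log (E.Λ x)) := by
  obtain ⟨m, ρ, q, h⟩ := exists_cav (G := E.G) E.η0 E.η1 w x
  simp only [Gr_symm _ x p', h.col]
  simp only [h.gr]
  exact (E.law x).junction (E.η0.trans_le h.im_ge) _ _ _ hB hB'

lemma jensen_lm (R : Finset V) (y b : V) {B c k : ℝ} (hB : E.η⁻¹ ≤ B) (hc : 0 ≤ c) (hcB : c ≤ B)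
    (hk : 0 ≤ k) (w : V → ℂ)
    (h : lmarginal E.μ R (fun w => nlog (‖Gr E.G E.η w y b‖ / B)) w ≤
      nlog (c / B) + ENNReal.ofReal k) :
    ENNReal.ofReal (Real.exp (-(2 * k)) * c ^ 2) ≤
      lmarginal E.μ R (fun w => ENNReal.ofReal (‖Gr E.G E.η w y b‖ ^ 2)) w :=
  jensen (Measure.pi fun i : R => E.μ i) (f := fun v => ‖Gr E.G E.η (updateFinset w R v) y b‖)
    ((measurable_Gr y b).comp measurable_updateFinset).norm ((inv_pos.2 E.η0).trans_le hB)
    (fun _ => norm_nonneg _) (fun _ => (norm_Gr_le E.η0 _ _ _).trans hB) hc hcB hk h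

lemma lm_fz_disj {N T : Finset V} (hd : Disjoint N T) (g : (V → ℂ) → ℝ≥0∞) (w : V → ℂ) :
    lmarginal E.μ N (fun w => g (fz E.r T w)) w = lmarginal E.μ N g (fz E.r T w) := by
  refine lintegral_congr fun v => congrArg g ?_
  funext x
  by_cases h : x ∈ N
  · simp [fz, updateFinset, h, disjoint_left.1 hd h]
  · simp [fz, updateFinset, h]

lemma sum_k0 (R : Finset V) : 0 ≤ ∑ x ∈ R, E.κ x := sum_nonneg fun x _ => (E.law x).k0

end Lo

open Lo

namespace Env

/-- REF on every site of `R`: induction on `R` (`lm_erase`/`lmarginal_insert'`, `exists_cav`,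
`Law.ref` with `b = q`, `a = q (cl r - m) + ρ ρ'`, bound `norm_Gr_le`; then `fz_insert`) -/
lemma ref_multi (R : Finset V) (p p' : V) {B : ℝ} (hB : E.η⁻¹ ≤ B) (w : V → ℂ) :
    lmarginal E.μ R (fun w => nlog (‖Gr E.G E.η w p p'‖ / B)) w ≤
      nlog (‖Gr E.G E.η (fz E.r R w) p p'‖ / B) + ENNReal.ofReal (2 * ∑ x ∈ R, E.κ x) := by
  induction R using Finset.induction_on generalizing w with
  | empty => simp
  | insert x R hx ih =>
    rw [lmarginal_insert _ (by fun_prop) hx]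
    refine (lintegral_mono fun z => ih (update w x z)).trans ?_
    rw [lintegral_add_right _ measurable_const, lintegral_const, measure_univ, mul_one, fz_insert,
      sum_insert hx, mul_add, ENNReal.ofReal_add (by linarith [(E.law x).k0])
        (by linarith [sum_k0 E R]), ← add_assoc]
    simp only [fz_update_notMem _ _ hx]
    exact add_le_add_left (ref_site E x p p' hB _) _

/-- TOP on every site of `N`.  Induction on `N` for `Ψ_S w = GrR S w p p' * phi S w`
(generalise `S`, disjoint from `N`; here `S = ∅`): as a function of `z = w n`,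
`Ψ_S = (q (cl z - m_S) + ρ ρ') dt (insert n S) / (dt {n} (cl z - m))` by `Cav.gr`, `Cav.det` in the
system `cut G S`, `rem S w` and `Cav.det` in the full system, so `Law0.top` has
`|b / (cl r - m)| = |Ψ_{insert n S} (update w n (r n))|`. -/
lemma top_multi (N : Finset V) {p p' : V} (hp : p ∉ N) (hp' : p' ∉ N) {B L : ℝ} (hB : 0 < B)
    (hL : ∀ n ∈ N, Real.log (E.Λ n) ≤ L) (w : V → ℂ) :
    lmarginal E.μ N (fun w => nlog (‖Gr E.G E.η w p p'‖ / B)) w ≤
      nlog (‖GrR E.G E.η N (fz E.r N w) p p' * phi E.G E.η N (fz E.r N w)‖ / B) +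
        ENNReal.ofReal (7 * N.card * L) := by
  induction N using Finset.induction_on generalizing w with
  | empty => simp [phi, dt_ne E.η0]
  | insert n N hn ih =>
    have h0 := (E.law n).log_nonneg
    have h1 := hL n (mem_insert_self n N)
    rw [mem_insert, not_or] at hp hp'
    rw [lmarginal_insert _ (by fun_prop) hn]
    refine (lintegral_mono fun z =>
      ih hp.2 hp'.2 (fun x hx => hL x (mem_insert_of_mem hx)) (update w n z)).trans ?_
    have hL0 : 0 ≤ L := h0.trans h1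
    rw [lintegral_add_right _ measurable_const, lintegral_const, measure_univ, mul_one, fz_insert,
      card_insert_of_notMem hn, show (7 * ((N.card + 1 : ℕ) : ℝ) * L) = 7 * L + 7 * N.card * L by
        push_cast; ring, ENNReal.ofReal_add (by positivity) (by positivity), ← add_assoc]
    simp only [fz_update_notMem _ _ hn]
    exact add_le_add_left ((top_site E hn hp.1 hp'.1 hB _).trans
      (add_le_add_right (ENNReal.ofReal_le_ofReal (by linarith)) _)) _

/-- J at a site of `R` (`lm_site`, `Law0.junction`, `Cav.gr`, `Cav.col`, `Gr_symm`) -/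
lemma junction_multi {R : Finset V} {x : V} (hx : x ∈ R) (p p' : V) {B B' : ℝ} (hB : 0 < B)
    (hB' : 0 < B') (w : V → ℂ) :
    lmarginal E.μ R (fun w => nlog (‖Gr E.G E.η w p p'‖ / (B * B'))) w ≤
      lmarginal E.μ R (fun w => nlog (‖Gr E.G E.η w p x‖ / B)) w +
        lmarginal E.μ R (fun w => nlog (‖Gr E.G E.η w x p'‖ / B')) w +
          ENNReal.ofReal (7 * Real.log (E.Λ x)) := by
  have m1 : Measurable fun w => nlog (‖Gr E.G E.η w p x‖ / B) := by fun_prop
  have m2 : Measurable fun w => nlog (‖Gr E.G E.η w x p'‖ / B') := by fun_prop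
  rw [lm_site E.μ hx (by fun_prop), lm_site E.μ hx m1, lm_site E.μ hx m2,
    ← lm_add E.μ R (measurable_site _ x m1),
    ← lm_const E.μ R (ENNReal.ofReal (7 * Real.log (E.Λ x))) w,
    ← lm_add E.μ R ((measurable_site _ x m1).fun_add (measurable_site _ x m2))]
  exact lm_mono E.μ R (fun w => jun_site E x p p' hB hB' w) w

/-- `ref_multi` and `jensen` (an `lmarginal` is a `lintegral` over `Measure.pi`) -/
lemma lower_ref (R : Finset V) (y b : V) (w : V → ℂ) :
    ENNReal.ofReal (Real.exp (-(4 * ∑ x ∈ R, E.κ x)) * ‖Gr E.G E.η (fz E.r R w) y b‖ ^ 2) ≤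
      lmarginal E.μ R (fun w => ENNReal.ofReal (‖Gr E.G E.η w y b‖ ^ 2)) w := by
  have := jensen_lm E R y b le_rfl (norm_nonneg _) (norm_Gr_le E.η0 (fz E.r R w) y b)
    (by linarith [sum_k0 E R]) w (E.ref_multi R y b le_rfl w)
  rwa [← mul_assoc, show (2 * 2 : ℝ) = 4 by norm_num] at this

/-- LOWER.  `B₁ = B₂ = η⁻¹`, `B₃ = max η⁻¹ (max 1 |phi|)`; J at `x₀`, J at `z`, `ref_multi` for
`G(y,x₀)`, `G(z,b)`; for `G(x₀,z)`: `lmarginal_union` with `R = N ∪ (R \ N)`, `ref_multi` on `R \ N`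
inside, then `top_multi`, `Thread.norm_eq` in the system `cut G N`, `rem N` (`dt_cut`); `nlog_mul_eq`
and `jensen` with `B = B₁ B₃ B₂ ≥ η⁻¹` (`η ≤ 1`). -/
theorem lower {R P N : Finset V} {y b x₀ z : V} {L : ℝ} (hR : P ∪ N ⊆ R) (hd : Disjoint P N)
    (hx : x₀ ∈ P) (hz : z ∈ P) (ht : Thread (cut E.G N) P x₀ z)
    (hL : ∀ t ∈ P ∪ N, Real.log (E.Λ t) ≤ L) (w : V → ℂ) :
    ENNReal.ofReal (Real.exp (-(12 * ∑ x ∈ R, E.κ x + 14 * (N.card + 2) * L)) *
      (‖Gr E.G E.η (fz E.r R w) y x₀‖ * ‖phi E.G E.η (P ∪ N) (fz E.r R w)‖ *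
        ‖Gr E.G E.η (fz E.r R w) z b‖) ^ 2) ≤
      lmarginal E.μ R (fun w => ENNReal.ofReal (‖Gr E.G E.η w y b‖ ^ 2)) w := by
  have hN : N ⊆ R := subset_union_right.trans hR
  have hxR : x₀ ∈ R := hR (mem_union_left _ hx)
  have hzR : z ∈ R := hR (mem_union_left _ hz)
  have hLx := hL x₀ (mem_union_left _ hx)
  have hLz := hL z (mem_union_left _ hz)
  have hL0 : 0 ≤ L := (E.law z).log_nonneg.trans hLz
  have hK := sum_k0 E R
  have h1 : 1 ≤ E.η⁻¹ := (one_le_inv₀ E.η0).2 E.η1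
  have h0 : 0 < E.η⁻¹ := by linarith
  set w₀ := fz E.r R w with hw₀
  set φ := ‖phi E.G E.η (P ∪ N) w₀‖ with hφ
  set B := max E.η⁻¹ φ with hB
  have hB1 : E.η⁻¹ ≤ B := le_max_left _ _
  have hB2 : φ ≤ B := le_max_right _ _
  have hB0 : 0 < B := by linarith
  have mid : lmarginal E.μ R (fun w => nlog (‖Gr E.G E.η w x₀ z‖ / B)) w ≤
      nlog (φ / B) + ENNReal.ofReal (7 * N.card * L) + ENNReal.ofReal (2 * ∑ x ∈ R, E.κ x) := by
    have e : ‖GrR E.G E.η N w₀ x₀ z * phi E.G E.η N w₀‖ = φ := by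
      rw [norm_mul, GrR, ht.norm_eq E.η0 E.η1, ← norm_mul, phi, dt_cut, dt_cut, union_empty, phi,
        div_mul_div_cancel₀ (dt_ne E.η0 _ _), union_comm, hφ, phi]
    have t := E.top_multi N (disjoint_left.1 hd hx) (disjoint_left.1 hd hz) hB0
      (fun n hn => hL n (mem_union_right _ hn)) (fz E.r (R \ N) w)
    rw [fz_fz, union_sdiff_of_subset hN, ← hw₀, e, ← lm_fz_disj E disjoint_sdiff] at t
    calc _ = lmarginal E.μ N (lmarginal E.μ (R \ N) fun w => nlog (‖Gr E.G E.η w x₀ z‖ / B)) w := by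
          rw [← lmarginal_union _ _ (by fun_prop) disjoint_sdiff, union_sdiff_of_subset hN]
      _ ≤ lmarginal E.μ N (fun w => nlog (‖Gr E.G E.η (fz E.r (R \ N) w) x₀ z‖ / B) +
            ENNReal.ofReal (2 * ∑ x ∈ R, E.κ x)) w :=
          lm_mono E.μ N (fun w => (E.ref_multi (R \ N) x₀ z hB1 w).trans <| add_le_add_right
            (ENNReal.ofReal_le_ofReal (mul_le_mul_of_nonneg_left (sum_le_sum_of_subset_of_nonneg
              sdiff_subset fun x _ _ => (E.law x).k0) zero_le_two)) _) w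
      _ ≤ _ := by
          have hm : Measurable fun w => nlog (‖Gr E.G E.η (fz E.r (R \ N) w) x₀ z‖ / B) :=
            measurable_nlog.comp (((measurable_Gr x₀ z).comp (measurable_fz _ _)).norm.div_const B)
          rw [lm_add E.μ N hm, lm_const]
          exact add_le_add_left t _
  have j1 := E.junction_multi hxR y b h0 (mul_pos hB0 h0) w
  have j2 := E.junction_multi hzR x₀ b hB0 h0 w
  have r1 := E.ref_multi R y x₀ le_rfl w
  have r2 := E.ref_multi R z b le_rfl w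
  rw [← hw₀] at r1 r2
  have a1 := norm_Gr_le (G := E.G) E.η0 w₀ y x₀
  have a2 := norm_Gr_le (G := E.G) E.η0 w₀ z b
  set a := ‖Gr E.G E.η w₀ y x₀‖
  set c := ‖Gr E.G E.η w₀ z b‖
  have a0 : 0 ≤ a := norm_nonneg _
  have c0 : 0 ≤ c := norm_nonneg _
  have φ0 : 0 ≤ φ := norm_nonneg _
  have u1 : a / E.η⁻¹ ≤ 1 := (div_le_one h0).2 a1
  have u2 : φ / B ≤ 1 := (div_le_one hB0).2 hB2
  have u3 : c / E.η⁻¹ ≤ 1 := (div_le_one h0).2 a2
  have en : nlog (a * φ * c / (E.η⁻¹ * (B * E.η⁻¹))) =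
      nlog (a / E.η⁻¹) + nlog (φ / B) + nlog (c / E.η⁻¹) := by
    rw [← nlog_mul_eq (by positivity) u1 (by positivity) u2,
      ← nlog_mul_eq (by positivity) (mul_le_one₀ u1 (by positivity) u2) (by positivity) u3]
    congr 1
    rw [div_mul_div_comm, div_mul_div_comm, mul_assoc E.η⁻¹]
  have := jensen_lm E R y b (B := E.η⁻¹ * (B * E.η⁻¹)) (c := a * φ * c)
    (k := 6 * ∑ x ∈ R, E.κ x + 7 * (N.card + 2) * L)
    (le_mul_of_one_le_right h0.le (one_le_mul_of_one_le_of_one_le (h1.trans hB1) h1))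
    (by positivity) (by rw [← mul_assoc]; gcongr) (by positivity) w ?_
  · rwa [show 2 * (6 * ∑ x ∈ R, E.κ x + 7 * (N.card + 2) * L) =
      12 * ∑ x ∈ R, E.κ x + 14 * (N.card + 2) * L by ring] at this
  · have l1 : ENNReal.ofReal (7 * Real.log (E.Λ x₀)) ≤ ENNReal.ofReal (7 * L) :=
      ENNReal.ofReal_le_ofReal (by linarith)
    have l2 : ENNReal.ofReal (7 * Real.log (E.Λ z)) ≤ ENNReal.ofReal (7 * L) :=
      ENNReal.ofReal_le_ofReal (by linarith)
    rw [en, show 6 * ∑ x ∈ R, E.κ x + 7 * (N.card + 2) * L = 2 * ∑ x ∈ R, E.κ x +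
      (7 * N.card * L + 2 * ∑ x ∈ R, E.κ x + 2 * ∑ x ∈ R, E.κ x + 7 * L) + 7 * L by ring,
      ENNReal.ofReal_add (by positivity) (by positivity),
      ENNReal.ofReal_add (by positivity) (by positivity),
      ENNReal.ofReal_add (by positivity) (by positivity),
      ENNReal.ofReal_add (by positivity) (by positivity),
      ENNReal.ofReal_add (by positivity) (by positivity)]
    refine (j1.trans (add_le_add (add_le_add r1
      (j2.trans (add_le_add (add_le_add mid r2) l2))) l1)).trans_eq ?_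
    ring

end Env

end Crest.Agent.N334.T
end

-- ▼ part N334/T/Moeb
section

/-!
# Row 334, engine T: the Moebius lemma (leaf T-Moeb)
-/

set_option autoImplicit false

open MeasureTheory Complex Finset Function
open scoped ENNReal

namespace Crest.Agent.N334.T

variable {μ : Measure ℂ} {r : ℂ} {Λ : ℝ}

/-- the Moebius function `(cl z - m') / (cl z - m)` is `ε` times smaller than at the reference -/
def small (r m m' : ℂ) (ε : ℝ) : Set ℂ :=
  {z | ‖(cl z - m') / (cl r - m')‖ < ε * ‖(cl z - m) / (cl r - m)‖}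

lemma measurableSet_small (r m m' : ℂ) (ε : ℝ) : MeasurableSet (small r m m' ε) :=
  measurableSet_lt (by fun_prop) (by fun_prop)

namespace Mo

lemma im_le (r m : ℂ) : m.im + |r.im| ≤ ‖cl r - m‖ := by
  refine le_trans ?_ (abs_im_le_norm _)
  rw [sub_im, abs_sub_comm]
  exact le_trans (by simp [cl]) (le_abs_self _)

lemma ev {m m' z : ℂ} (hm : 0 < m.im) (hm' : 0 < m'.im) {ε : ℝ} (hz : z ∈ small r m m' ε) :
    ‖cl z - m'‖ * ‖cl r - m‖ < ε * ‖cl r - m'‖ * ‖cl z - m‖ := by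
  have hA : 0 < ‖cl r - m'‖ := by linarith [im_le r m', abs_nonneg r.im]
  have hB : 0 < ‖cl r - m‖ := by linarith [im_le r m, abs_nonneg r.im]
  have h : ‖(cl z - m') / (cl r - m')‖ < ε * ‖(cl z - m) / (cl r - m)‖ := hz
  rw [norm_div, norm_div, ← mul_div_assoc, div_lt_div_iff₀ hA hB] at h
  linarith

lemma tri (p q s : ℂ) : ‖p - s‖ ≤ ‖p - q‖ + ‖q - s‖ := norm_sub_le_norm_sub_add_norm_sub p q s

lemma near (h : Law0 μ r Λ) {S : Set ℂ} (hS : MeasurableSet S) {F : ℂ → ℝ} {m' : ℂ} {c l : ℝ}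
    (hc : 0 ≤ c) (hl : 0 ≤ l)
    (hF : ∀ z ∈ S, ‖cl z - m'‖ ≤ l ∧ F z ≤ c * (1 + ‖cl z - cl r‖ ^ 2)) :
    ∫⁻ z in S, ENNReal.ofReal (F z) ∂μ ≤ ENNReal.ofReal (c * (Λ * l)) := by
  refine (setLIntegral_mono' hS fun z hz => (ENNReal.ofReal_le_ofReal (hF z hz).2).trans_eq
    (ENNReal.ofReal_mul hc)).trans ?_
  rw [lintegral_const_mul' _ _ ENNReal.ofReal_ne_top, ENNReal.ofReal_mul hc]
  refine mul_le_mul_right ((lintegral_mono_set fun z hz => ?_).trans (h.u2 m'.re l hl)) _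
  exact le_trans (abs_re_le_norm (cl z - m')) (hF z hz).1

lemma far (h : Law0 μ r Λ) {S : Set ℂ} (hS : MeasurableSet S) {F : ℂ → ℝ} {c s : ℝ}
    (hc : 0 ≤ c) (hs : 0 < s) (hF : ∀ z ∈ S, s < ‖cl z - cl r‖ ∧ F z ≤ c) :
    ∫⁻ z in S, ENNReal.ofReal (F z) ∂μ ≤ ENNReal.ofReal (c * (Λ / s)) := by
  refine (setLIntegral_mono' hS fun z hz => ENNReal.ofReal_le_ofReal (hF z hz).2).trans ?_
  rw [setLIntegral_const, ENNReal.ofReal_mul hc]
  exact mul_le_mul_right ((measure_mono fun z hz => (hF z hz).1).trans (h.u3 s hs)) _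

/-- on the event `|t| > min (|a| / 2, |b| / (4 ε))` -/
lemma large {m m' z : ℂ} (hm : 0 < m.im) (hm' : 0 < m'.im) {ε : ℝ} (hε : 0 < ε) (hε1 : ε ≤ 1 / 4)
    (hz : z ∈ small r m m' ε) :
    ‖cl r - m'‖ < 2 * ‖cl z - cl r‖ ∨ ‖cl r - m‖ < 4 * ε * ‖cl z - cl r‖ := by
  have hA : 0 < ‖cl r - m'‖ := by linarith [im_le r m', abs_nonneg r.im]
  have hB : 0 < ‖cl r - m‖ := by linarith [im_le r m, abs_nonneg r.im]
  refine (lt_or_ge _ _).imp_right fun hT => ?_
  have e := ev hm hm' hz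
  have t1 := tri (cl r) (cl z) m'
  have t2 := tri (cl z) (cl r) m
  rw [norm_sub_rev (cl r) (cl z)] at t1
  have h1 : ‖cl r - m'‖ * (‖cl r - m‖ / 2) <
      ‖cl r - m'‖ * (ε * (‖cl z - cl r‖ + ‖cl r - m‖)) := by
    nlinarith [mul_le_mul_of_nonneg_left t2 (mul_pos hε hA).le]
  have h2 := lt_of_mul_lt_mul_left h1 hA.le
  nlinarith [mul_nonneg hε.le (norm_nonneg (cl z - cl r))]

/-- the case `ε |a| ≤ |b| / 2` -/
lemma close {m m' z : ℂ} (hm : 0 < m.im) (hm' : 0 < m'.im) {ε : ℝ} (hε : 0 < ε)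
    (hc : 2 * ε * ‖cl r - m'‖ ≤ ‖cl r - m‖) (hz : z ∈ small r m m' ε) :
    ‖cl z - m'‖ < 2 * ε * ‖cl r - m'‖ * ‖m - m'‖ / ‖cl r - m‖ ∧
      2 * ‖m - m'‖ ≤ 3 * ‖cl z - m‖ ∧ ‖cl z - m'‖ < ‖m - m'‖ := by
  have hA : 0 < ‖cl r - m'‖ := by linarith [im_le r m', abs_nonneg r.im]
  have hB : 0 < ‖cl r - m‖ := by linarith [im_le r m, abs_nonneg r.im]
  have e := ev hm hm' hz
  have t1 := tri (cl z) m' m
  have t2 := tri m (cl z) m'
  rw [norm_sub_rev m' m] at t1
  rw [norm_sub_rev m (cl z)] at t2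
  have h1 : 2 * ‖cl z - m'‖ < ‖cl z - m‖ := by
    refine lt_of_mul_lt_mul_right ?_ hB.le
    nlinarith [mul_le_mul_of_nonneg_right hc (norm_nonneg (cl z - m))]
  refine ⟨(lt_div_iff₀ hB).2 ?_, by linarith, by linarith⟩
  nlinarith [mul_le_mul_of_nonneg_left t1 (mul_pos hε hA).le,
    mul_le_mul_of_nonneg_right hc (norm_nonneg (cl z - m'))]

lemma basic (h : Law0 μ r Λ) {m : ℂ} (hm : 0 < m.im) {ε : ℝ} (hε1 : ε ≤ (Λ ^ 2)⁻¹) :
    1 ≤ Λ * ‖cl r - m‖ ∧ ε * Λ ≤ 1 / 100 ∧ ε ≤ 1 / 10000 := by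
  have hΛ := h.big
  have h0 : 0 < Λ := by linarith
  have h1 : ε * Λ ^ 2 ≤ 1 := by rwa [← le_div_iff₀ (by positivity), one_div]
  refine ⟨?_, ?_, ?_⟩
  · rw [← div_le_iff₀' h0, one_div]
    linarith [h.sig, im_le r m]
  · by_contra hc
    nlinarith
  · by_contra hc
    have : (10000 : ℝ) ≤ Λ ^ 2 := by nlinarith
    nlinarith

end Mo

open Mo

/-- `t = cl z - cl r`, `a = m' - cl r`, `b = m - cl r`, `|a|, |b| ≥ σ ≥ Λ⁻¹`, `ρ = |a| / |b|`; the
event is `|t - a| < ε ρ |t - b|`.  Case `ε (1 + ρ) ≤ 1/4`: `|t - a| < l := 2 ε ρ |a - b| ≤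
2 ε |a| (1 + ρ) ≤ |a| / 2`; `|a| ≤ 4`: `u2` gives `40 Λ² ε`; `|a| > 4`: `|t| ≥ |a| / 2`, the weight
gives `4 Λ l / |a|² ≤ 8 Λ ε (1/|a| + 1/|b|)`.  Else `|a| > |b| / (8 ε)` and the event forces
`|t| > |b| / (16 ε)` (if `|t| ≤ |a| / 2` then `1/2 < ε (1 + |t| / |b|)`): `u3`. -/
lemma Law0.moeb_prob (h : Law0 μ r Λ) {m m' : ℂ} (hm : 0 < m.im) (hm' : 0 < m'.im) {ε : ℝ}
    (hε : 0 < ε) (hε1 : ε ≤ (Λ ^ 2)⁻¹) : μ (small r m m' ε) ≤ ENNReal.ofReal (Λ ^ 3 * ε) := by
  have hS := measurableSet_small r m m' ε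
  have hΛ := h.big
  obtain ⟨b1, b2, b3⟩ := basic h hm hε1
  have hA : 0 < ‖cl r - m'‖ := by linarith [im_le r m', abs_nonneg r.im]
  have hB : 0 < ‖cl r - m‖ := by linarith [im_le r m, abs_nonneg r.im]
  have hB' : ‖cl r - m‖⁻¹ ≤ Λ := by rwa [inv_le_iff_one_le_mul₀ hB]
  have hΛε : 0 < Λ * ε := by positivity
  have e1 : μ (small r m m' ε) = ∫⁻ _ in small r m m' ε, ENNReal.ofReal 1 ∂μ := by simp
  rw [e1]
  have hD : ‖m - m'‖ ≤ ‖cl r - m'‖ + ‖cl r - m‖ := by
    have := tri m (cl r) m'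
    rw [norm_sub_rev m (cl r)] at this
    linarith
  rcases le_or_gt (8 * ε * ‖cl r - m'‖) ‖cl r - m‖ with hc | hc
  · refine (near h hS (m' := m') (c := (1 + ‖cl r - m'‖ ^ 2 / 4)⁻¹)
      (l := 2 * ε * ‖cl r - m'‖ * ‖m - m'‖ / ‖cl r - m‖) (by positivity) (by positivity)
      fun z hz => ?_).trans (ENNReal.ofReal_le_ofReal ?_)
    · have h1 := (close hm hm' hε (by nlinarith) hz).1
      refine ⟨h1.le, ?_⟩
      have h2 : 2 * ε * ‖cl r - m'‖ * ‖m - m'‖ / ‖cl r - m‖ ≤ ‖cl r - m'‖ / 2 := by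
        rw [div_le_iff₀ hB]
        nlinarith [mul_le_mul_of_nonneg_left hD (mul_pos hε hA).le, mul_pos hA hB,
          mul_le_mul_of_nonneg_left hc hA.le]
      have t1 := tri (cl r) (cl z) m'
      rw [norm_sub_rev (cl r) (cl z)] at t1
      rw [le_inv_mul_iff₀ (by positivity)]
      nlinarith
    · rw [inv_mul_le_iff₀ (by positivity), div_eq_mul_inv]
      have h1 : ‖m - m'‖ * ‖cl r - m‖⁻¹ ≤ ‖cl r - m'‖ * Λ + 1 := by
        calc _ ≤ (‖cl r - m'‖ + ‖cl r - m‖) * ‖cl r - m‖⁻¹ := by gcongr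
          _ = ‖cl r - m'‖ * ‖cl r - m‖⁻¹ + 1 := by field_simp
          _ ≤ _ := by gcongr
      have h2 : 2 * ‖cl r - m'‖ * (‖cl r - m'‖ * Λ + 1) ≤ (1 + ‖cl r - m'‖ ^ 2 / 4) * Λ ^ 2 := by
        nlinarith [sq_nonneg (‖cl r - m'‖ - 1), mul_nonneg (sq_nonneg ‖cl r - m'‖)
          (mul_nonneg (show 0 ≤ Λ by linarith) (show 0 ≤ Λ - 100 by linarith)),
          mul_nonneg (sq_nonneg ‖cl r - m'‖) (show 0 ≤ Λ - 100 by linarith)]
      calc _ = Λ * ε * (2 * ‖cl r - m'‖ * (‖m - m'‖ * ‖cl r - m‖⁻¹)) := by ring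
        _ ≤ Λ * ε * ((1 + ‖cl r - m'‖ ^ 2 / 4) * Λ ^ 2) :=
          mul_le_mul_of_nonneg_left (le_trans (by gcongr) h2) hΛε.le
        _ = _ := by ring
  · refine (far h hS (c := 1) (s := ‖cl r - m‖ / (16 * ε)) zero_le_one (by positivity)
      fun z hz => ⟨?_, le_rfl⟩).trans (ENNReal.ofReal_le_ofReal ?_)
    · rw [div_lt_iff₀ (by positivity)]
      rcases large hm hm' hε (by linarith) hz with h1 | h1
      · nlinarith
      · nlinarith [mul_nonneg hε.le (norm_nonneg (cl z - cl r))]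
    · calc _ = Λ * ε * (16 * ‖cl r - m‖⁻¹) := by field_simp
        _ ≤ Λ * ε * Λ ^ 2 := by gcongr; nlinarith
        _ = _ := by ring

/-- Case `ε ρ ≤ 1/2`: on the event `|t - a| < l := 2 ε ρ |a - b| ≤ |a - b|`,
`|t - b| ≥ 2/3 |a - b|`, `Im m ≤ Im m' + |a - b| ≤ 2 |a - b|` (event nonempty); `u2` gives
`9/2 Λ ε ρ Im m / |a - b| ≤ 18 Λ ε` (`ρ ≤ 2`: done; `ρ ≥ 2`: `|a - b| ≥ |a| / 2`, `Im m ≤ |b|`).
Case `ε ρ > 1/2`: `|t| > |b| / (4 ε)`, `|t - b| ≥ |t| / 2`, the integrand is at most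
`4 |b| (1 + 16 ε² / σ²)`, `u3` gives `17 Λ ε`. -/
lemma Law0.moeb_wt (h : Law0 μ r Λ) {m m' : ℂ} (hm : 0 < m.im) (hm' : 0 < m'.im) {ε : ℝ}
    (hε : 0 < ε) (hε1 : ε ≤ (Λ ^ 2)⁻¹) :
    ∫⁻ z in small r m m' ε,
      ENNReal.ofReal ((1 + ‖cl z - cl r‖ ^ 2) * (m.im / ‖cl z - m‖ ^ 2)) ∂μ ≤
        ENNReal.ofReal (Λ ^ 2 * ε) := by
  have hS := measurableSet_small r m m' ε
  have hΛ := h.big
  obtain ⟨b1, b2, b3⟩ := basic h hm hε1
  have hA : 0 < ‖cl r - m'‖ := by linarith [im_le r m', abs_nonneg r.im]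
  have hB : 0 < ‖cl r - m‖ := by linarith [im_le r m, abs_nonneg r.im]
  have hI : m.im ≤ ‖cl r - m‖ := by linarith [im_le r m, abs_nonneg r.im]
  have hΛε : 0 < Λ * ε := by positivity
  rcases (small r m m' ε).eq_empty_or_nonempty with hE | ⟨z₀, hz₀⟩
  · simp [hE]
  rcases le_or_gt (2 * ε * ‖cl r - m'‖) ‖cl r - m‖ with hc | hc
  · have h0 := (close hm hm' hε hc hz₀).2.2
    have hD : 0 < ‖m - m'‖ := (norm_nonneg _).trans_lt h0
    have hI' : m.im ≤ 2 * ‖m - m'‖ := by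
      have h1 := (le_abs_self _).trans (abs_im_le_norm (m - m'))
      rw [sub_im] at h1
      linarith [im_le z₀ m', abs_nonneg z₀.im]
    refine (near h hS (m' := m') (c := 9 / 4 * m.im / ‖m - m'‖ ^ 2)
      (l := 2 * ε * ‖cl r - m'‖ * ‖m - m'‖ / ‖cl r - m‖) (by positivity) (by positivity)
      fun z hz => ?_).trans (ENNReal.ofReal_le_ofReal ?_)
    · obtain ⟨h1, h2, -⟩ := close hm hm' hε hc hz
      refine ⟨h1.le, ?_⟩
      rw [mul_comm]
      refine mul_le_mul_of_nonneg_right ?_ (by positivity)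
      rw [div_le_div_iff₀ (pow_pos (by linarith) 2) (by positivity)]
      nlinarith [mul_le_mul_of_nonneg_left (pow_le_pow_left₀ (by positivity) h2 2) hm.le]
    · have h1 : ‖cl r - m'‖ * m.im ≤ 3 * (‖cl r - m‖ * ‖m - m'‖) := by
        nlinarith [mul_le_mul_of_nonneg_right (tri (cl r) m m') hm.le,
          mul_le_mul_of_nonneg_left hI' hB.le, mul_le_mul_of_nonneg_left hI hD.le]
      calc _ = Λ * ε * (9 / 2 * (‖cl r - m'‖ * m.im / (‖cl r - m‖ * ‖m - m'‖))) := by
            field_simp; ring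
        _ ≤ Λ * ε * Λ := by
          gcongr
          linarith [(div_le_iff₀ (mul_pos hB hD)).2 h1]
        _ = _ := by ring
  · refine (far h hS (c := 8 * ‖cl r - m‖) (s := ‖cl r - m‖ / (4 * ε)) (by positivity)
      (by positivity) fun z hz => ?_).trans (ENNReal.ofReal_le_ofReal ?_)
    · have h1 : ‖cl r - m‖ < 4 * ε * ‖cl z - cl r‖ :=
        (large hm hm' hε (by linarith) hz).elim (fun h1 => by nlinarith) id
      refine ⟨by rwa [div_lt_iff₀ (by positivity), mul_comm], ?_⟩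
      have hT := norm_nonneg (cl z - cl r)
      have h2 : 1 ≤ ‖cl z - cl r‖ := by
        nlinarith [mul_le_mul_of_nonneg_left h1.le (show 0 ≤ Λ by linarith),
          mul_le_mul_of_nonneg_right b2 hT]
      have t1 := tri (cl z) m (cl r)
      rw [norm_sub_rev m] at t1
      have h3 : ‖cl z - cl r‖ ≤ 2 * ‖cl z - m‖ := by nlinarith
      have h4 : 1 + ‖cl z - cl r‖ ^ 2 ≤ 8 * ‖cl z - m‖ ^ 2 := by nlinarith
      rw [← mul_div_assoc, div_le_iff₀ (pow_pos (by linarith) 2)]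
      nlinarith [mul_le_mul h4 hI hm.le (by positivity)]
    · calc _ = Λ * ε * 32 := by field_simp; ring
        _ ≤ Λ * ε * Λ := by gcongr; linarith
        _ = _ := by ring

end Crest.Agent.N334.T
end

-- ▼ part N334/T/Path
section

/-!
# Row 334, engine T: graph combinatorics (leaf T-Path)
-/

set_option autoImplicit false
set_option linter.unusedSectionVars false

open MeasureTheory Complex Finset Function
open scoped ENNReal

namespace Crest.Agent.N334.T

variable {V : Type} [Fintype V] [DecidableEq V] {G : SimpleGraph V}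

lemma mem_ball_succ {x y : V} {n : ℕ} :
    y ∈ ball G x (n + 1) ↔ y ∈ ball G x n ∨ ∃ v ∈ ball G x n, y ∈ nbr G v := by
  simp [ball]

lemma ball_mono (x : V) {n m : ℕ} (h : n ≤ m) : ball G x n ⊆ ball G x m := by
  induction m, h using Nat.le_induction with
  | base => exact Subset.rfl
  | succ m _ ih => exact fun y hy => mem_ball_succ.2 (Or.inl (ih hy))

lemma self_mem_ball (x : V) (n : ℕ) : x ∈ ball G x n := ball_mono x n.zero_le (by simp [ball])

lemma nbr_subset_ball (x : V) : nbr G x ⊆ ball G x 1 := by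
  intro y hy
  exact mem_ball_succ.2 (Or.inr ⟨x, self_mem_ball x 0, hy⟩)

lemma ball_add {x y : V} {n : ℕ} (h : y ∈ ball G x n) (m : ℕ) :
    ball G y m ⊆ ball G x (n + m) := by
  induction m with
  | zero =>
    intro v hv
    have : v = y := by simpa [ball] using hv
    simpa [this] using h
  | succ m ih =>
    intro v hv
    rw [← add_assoc, mem_ball_succ]
    rcases mem_ball_succ.1 hv with hv | ⟨u, hu, hv⟩
    · exact Or.inl (ih hv)
    · exact Or.inr ⟨u, ih hu, hv⟩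

lemma mem_ball_iff {x y : V} {n : ℕ} : y ∈ ball G x n ↔ ∃ p : G.Walk x y, p.length ≤ n := by
  constructor
  · intro h
    induction n generalizing y with
    | zero =>
      have : y = x := by simpa [ball] using h
      subst this
      exact ⟨.nil, le_rfl⟩
    | succ n ih =>
      rcases mem_ball_succ.1 h with h | ⟨u, hu, h⟩
      · obtain ⟨p, hp⟩ := ih h
        exact ⟨p, hp.trans n.le_succ⟩
      · obtain ⟨p, hp⟩ := ih hu
        exact ⟨p.concat (mem_nbr.1 h), by simpa using hp⟩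
  · rintro ⟨p, hp⟩
    refine ball_mono x hp ?_
    clear hp
    induction p with
    | nil => exact self_mem_ball _ _
    | cons h p ih =>
      have := ball_add (nbr_subset_ball _ (mem_nbr.2 h)) _ ih
      simpa [add_comm] using this

lemma ball_symm {x y : V} {n : ℕ} (h : y ∈ ball G x n) : x ∈ ball G y n := by
  obtain ⟨p, hp⟩ := mem_ball_iff.1 h
  exact mem_ball_iff.2 ⟨p.reverse, by simpa using hp⟩

lemma ball_subset_insert (x : V) (n : ℕ) :
    ball G x (n + 1) ⊆ insert x ((ball G x n).biUnion (nbr G)) := by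
  induction n with
  | zero =>
    intro y hy
    rcases mem_ball_succ.1 hy with h | h
    · have : y = x := by simpa [ball] using h
      simp [this]
    · exact mem_insert_of_mem (mem_biUnion.2 h)
  | succ n ih =>
    intro y hy
    rcases mem_ball_succ.1 hy with h | h
    · rcases mem_insert.1 (ih h) with h | h
      · simp [h]
      · obtain ⟨v, hv, h⟩ := mem_biUnion.1 h
        exact mem_insert_of_mem (mem_biUnion.2 ⟨v, ball_mono x n.le_succ hv, h⟩)
    · exact mem_insert_of_mem (mem_biUnion.2 h)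

lemma card_ball_succ (hd : Deg G) (x : V) (n : ℕ) :
    (ball G x (n + 1)).card ≤ 4 * (ball G x n).card + 1 := by
  refine (card_le_card (ball_subset_insert x n)).trans ((card_insert_le _ _).trans ?_)
  have := card_biUnion_le_card_mul (ball G x n) (nbr G) 4 fun v _ => hd v
  omega

lemma card_ball3 (hd : Deg G) (x : V) : (ball G x 3).card ≤ 85 := by
  have h0 : (ball G x 0).card = 1 := by simp [ball]
  have h1 := card_ball_succ hd x 0
  have h2 := card_ball_succ hd x 1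
  have h3 := card_ball_succ hd x 2
  norm_num at h1 h2 h3
  omega

/-- a vertex of a walk is close to both ends -/
lemma support_ball {x y v : V} (p : G.Walk x y) (hv : v ∈ p.support) :
    ∃ i j, i + j = p.length ∧ v ∈ ball G x i ∧ v ∈ ball G y j := by
  refine ⟨(p.takeUntil v hv).length, (p.dropUntil v hv).length, ?_,
    mem_ball_iff.2 ⟨_, le_rfl⟩, ball_symm (mem_ball_iff.2 ⟨_, le_rfl⟩)⟩
  rw [← SimpleGraph.Walk.length_append, SimpleGraph.Walk.take_spec]

/-- the part of a walk after its last visit to `S` -/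
lemma last_visit (S : Finset V) {y z : V} (p : G.Walk y z) (h : ∃ v ∈ p.support, v ∈ S) :
    ∃ v ∈ S, ∃ q : G.Walk v z, q.length ≤ p.length ∧ (∀ u ∈ q.support, u ∈ p.support) ∧
      ∀ u ∈ q.support, u ∈ S → u = v := by
  induction p with
  | nil =>
    obtain ⟨v, hv, hS⟩ := h
    simp only [SimpleGraph.Walk.support_nil, List.mem_singleton] at hv
    subst hv
    exact ⟨v, hS, .nil, le_rfl, fun _ h => h, by simp⟩
  | @cons a b c hab p ih =>
    by_cases h' : ∃ v ∈ p.support, v ∈ S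
    · obtain ⟨v, hv, q, h1, h2, h3⟩ := ih h'
      refine ⟨v, hv, q, by simp; omega, fun u hu => ?_, h3⟩
      simp [h2 u hu]
    · obtain ⟨v, hv, hS⟩ := h
      simp only [SimpleGraph.Walk.support_cons, List.mem_cons] at hv
      rcases hv with rfl | hv
      · refine ⟨v, hS, .cons hab p, le_rfl, fun _ h => h, fun u hu huS => ?_⟩
        simp only [SimpleGraph.Walk.support_cons, List.mem_cons] at hu
        exact hu.resolve_right fun hu => h' ⟨u, hu, huS⟩
      · exact absurd ⟨v, hv, hS⟩ h'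

/-- a walk that avoids `S` lives in `cut G S` -/
lemma walk_cut (S : Finset V) {y z : V} (p : G.Walk y z) (h : ∀ u ∈ p.support, u ∉ S) :
    ∃ q : (cut G S).Walk y z, q.length = p.length ∧ q.support = p.support := by
  induction p with
  | nil => exact ⟨.nil, rfl, rfl⟩
  | @cons a b c hab p ih =>
    obtain ⟨q, h1, h2⟩ := ih fun u hu => h u (by simp [hu])
    exact ⟨.cons ⟨hab, h a (by simp), h b (by simp)⟩ q, by simp [h1], by simp [h2]⟩

lemma exists_thread_aux (n : ℕ) : ∀ (G : SimpleGraph V), Deg G → ∀ (x z : V) (p : G.Walk x z),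
    p.length ≤ n →
    ∃ P N : Finset V, (∀ v ∈ P, v ∈ p.support) ∧ x ∈ P ∧ z ∈ P ∧ Disjoint P N ∧
      (∀ n ∈ N, ∃ v ∈ P, v ≠ z ∧ n ∈ nbr G v) ∧ P.card ≤ p.length + 1 ∧
      N.card ≤ 4 * p.length ∧ Thread (cut G N) P x z := by
  have triv : ∀ (G : SimpleGraph V) (z : V) (p : G.Walk z z),
      ∃ P N : Finset V, (∀ v ∈ P, v ∈ p.support) ∧ z ∈ P ∧ z ∈ P ∧ Disjoint P N ∧
      (∀ n ∈ N, ∃ v ∈ P, v ≠ z ∧ n ∈ nbr G v) ∧ P.card ≤ p.length + 1 ∧
      N.card ≤ 4 * p.length ∧ Thread (cut G N) P z z := fun G z p =>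
    ⟨{z}, ∅, by simp, by simp, by simp, by simp, by simp, by simp, by simp, .nil _ _⟩
  induction n with
  | zero =>
    intro G _ x z p hp
    obtain rfl := p.eq_of_length_eq_zero (by omega)
    exact triv G _ p
  | succ n ih =>
    intro G hd x z p hp
    by_cases hxz : x = z
    · subst hxz
      exact triv G _ p
    cases p with
    | nil => exact absurd rfl hxz
    | @cons _ a _ hxa p =>
      obtain ⟨v, hv, q, h1, h2, h3⟩ := last_visit (insert x (nbr G x)) p
        ⟨a, p.start_mem_support, mem_insert_of_mem (mem_nbr.2 hxa)⟩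
      have hvx : v ≠ x := by
        rintro rfl
        cases q with
        | nil => exact hxz rfl
        | @cons _ b _ hb q =>
          exact hb.ne' (h3 b (by simp) (mem_insert_of_mem (mem_nbr.2 hb)))
      have hvn : v ∈ nbr G x := (mem_insert.1 hv).resolve_left hvx
      set N₀ := (nbr G x).erase v with hN₀
      have hav : ∀ u ∈ q.support, u ∉ insert x N₀ := by
        intro u hu hu'
        rcases mem_insert.1 hu' with rfl | hu'
        · exact hvx (h3 u hu (mem_insert_self _ _)).symm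
        · exact (mem_erase.1 hu').1 (h3 u hu (mem_insert_of_mem (mem_erase.1 hu').2))
      obtain ⟨q', e1, e2⟩ := walk_cut (insert x N₀) q hav
      simp only [SimpleGraph.Walk.length_cons] at hp ⊢
      obtain ⟨P, N, k1, k2, k3, k4, k5, k6, k7, k8⟩ :=
        ih (cut G (insert x N₀)) (hd.cut _) v z q' (by omega)
      rw [e2] at k1
      have hxP : x ∉ P := fun h => hav x (k1 x h) (mem_insert_self _ _)
      have hxN : x ∉ N := by
        intro h
        obtain ⟨u, -, -, hu⟩ := k5 x h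
        exact (mem_nbr_cut.1 hu).2.2 (mem_insert_self _ _)
      have hxN₀ : x ∉ N₀ := fun h => G.irrefl (mem_nbr.1 (mem_erase.1 h).2)
      refine ⟨insert x P, N₀ ∪ N, ?_, mem_insert_self _ _, mem_insert_of_mem k3, ?_, ?_, ?_, ?_, ?_⟩
      · intro u hu
        rcases mem_insert.1 hu with rfl | hu
        · simp
        · simp [h2 u (k1 u hu)]
      · rw [disjoint_left]
        intro u hu hu'
        rcases mem_insert.1 hu with rfl | hu <;> rcases mem_union.1 hu' with hu' | hu'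
        · exact hxN₀ hu'
        · exact hxN hu'
        · exact hav u (k1 u hu) (mem_insert_of_mem hu')
        · exact disjoint_left.1 k4 hu hu'
      · intro u hu
        rcases mem_union.1 hu with hu | hu
        · exact ⟨x, mem_insert_self _ _, hxz, (mem_erase.1 hu).2⟩
        · obtain ⟨w, w1, w2, w3⟩ := k5 u hu
          exact ⟨w, mem_insert_of_mem w1, w2, (mem_nbr_cut.1 w3).1⟩
      · have := card_insert_le x P
        omega
      · have := card_union_le N₀ N
        have h4 : N₀.card ≤ 4 := (card_erase_le).trans (hd x)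
        omega
      · refine .cons _ P x v z hxP ?_ ?_
        · ext y
          rw [mem_nbr_cut, mem_singleton]
          constructor
          · rintro ⟨y1, -, y2⟩
            by_contra hy
            exact y2 (mem_union_left _ (mem_erase.2 ⟨hy, y1⟩))
          · rintro rfl
            refine ⟨hvn, by simp [hxN, hxN₀], fun h => ?_⟩
            rcases mem_union.1 h with h | h
            · exact (mem_erase.1 h).1 rfl
            · exact disjoint_left.1 k4 k2 h
        · rw [cut_cut] at k8 ⊢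
          have : N₀ ∪ N ∪ {x} = insert x N₀ ∪ N := by
            ext y; simp only [mem_union, mem_singleton, mem_insert]; tauto
          rw [this]
          exact k8

/-- Strong induction on the length, for all graphs.  If `x = z` take `P = {z}`, `N = ∅`.  Else let
`p'` be the LAST vertex of the walk adjacent to `x` after the last visit of `x`; the rest of the walk
lives in `cut G (insert x N₀)`, `N₀ = (nbr G x).erase p'`; take `N = N₀ ∪ N'`. -/
lemma exists_thread (hd : Deg G) {x z : V} (p : G.Walk x z) :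
    ∃ P N : Finset V, (∀ v ∈ P, v ∈ p.support) ∧ x ∈ P ∧ z ∈ P ∧ Disjoint P N ∧
      (∀ n ∈ N, ∃ v ∈ P, v ≠ z ∧ n ∈ nbr G v) ∧ P.card ≤ p.length + 1 ∧
      N.card ≤ 4 * p.length ∧ Thread (cut G N) P x z := by
  exact exists_thread_aux _ G hd x z p le_rfl

/-- `exists_thread` for the reversed walk of the invariant -/
lemma Inv.thread (hd : Deg G) {R : Finset V} {z x₀ : V} {l : ℕ} (h : Inv G R z x₀ l) :
    ∃ P N : Finset V, P ∪ N ⊆ R ∧ x₀ ∈ P ∧ z ∈ P ∧ Disjoint P N ∧ P.card ≤ l + 1 ∧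
      N.card ≤ 4 * l ∧ Thread (cut G N) P x₀ z ∧ z ∈ ball G x₀ l ∧
      ∀ t ∈ P ∪ N, t ∈ ball G x₀ (l + 3) ∧ nbr G t ⊆ (R ∪ ball G z 3) ∩ ball G x₀ (l + 3) := by
  obtain ⟨hz, p, hp, hs⟩ := h
  obtain ⟨P, N, k1, k2, k3, k4, k5, k6, k7, k8⟩ := exists_thread hd p.reverse
  simp only [SimpleGraph.Walk.support_reverse, List.mem_reverse,
    SimpleGraph.Walk.length_reverse] at k1 k6 k7
  refine ⟨P, N, ?_, k2, k3, k4, by omega, by omega, k8,
    ball_symm (mem_ball_iff.2 ⟨p, hp⟩), ?_⟩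
  · intro u hu
    rcases mem_union.1 hu with hu | hu
    · by_cases huz : u = z
      · exact huz ▸ hz
      · exact (hs u (k1 u hu)).1 huz (self_mem_ball _ _)
    · obtain ⟨v, v1, v2, v3⟩ := k5 u hu
      exact (hs v (k1 v v1)).1 v2 (nbr_subset_ball _ v3)
  · intro t ht
    obtain ⟨v, v1, v2⟩ : ∃ v ∈ p.support, t ∈ ball G v 1 := by
      rcases mem_union.1 ht with ht | ht
      · exact ⟨t, k1 t ht, self_mem_ball _ _⟩
      · obtain ⟨v, v1, -, v3⟩ := k5 t ht
        exact ⟨v, k1 v v1, nbr_subset_ball _ v3⟩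
    obtain ⟨i, j, hij, -, hj⟩ := support_ball p v1
    have h2 : nbr G t ⊆ ball G v 2 := (nbr_subset_ball t).trans (ball_add v2 1)
    refine ⟨ball_mono x₀ (by omega) (ball_add hj 1 v2), subset_inter (h2.trans (hs v v1).2) ?_⟩
    exact h2.trans ((ball_add hj 2).trans (ball_mono x₀ (by omega)))

/-- prepend a shortest walk from `z'` to `z`: its `j`-th vertex is in `ball z (3 - j)` and in
`ball z' j` -/
lemma Inv.step {R : Finset V} {z x₀ z' : V} {l : ℕ} (h : Inv G R z x₀ l) (hz : z' ∈ ball G z 3) :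
    Inv G (R ∪ ball G z 3) z' x₀ (l + 3) := by
  obtain ⟨-, p, hp, hs⟩ := h
  obtain ⟨s, hs'⟩ := mem_ball_iff.1 (ball_symm hz)
  refine ⟨mem_union_right _ hz, s.append p, by simp; omega, fun q hq => ?_⟩
  rcases (SimpleGraph.Walk.mem_support_append_iff s p).1 hq with hq | hq
  · obtain ⟨i, j, hij, hi, hj⟩ := support_ball s hq
    constructor
    · intro hne
      have hi0 : i ≠ 0 := by
        rintro rfl
        exact hne (by simpa [ball] using hi)
      exact ((ball_add hj 1).trans (ball_mono z (by omega))).trans subset_union_right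
    · rcases le_or_gt i 1 with h1 | h1
      · exact ((ball_add hi 2).trans (ball_mono z' (by omega))).trans subset_union_right
      · exact (((ball_add hj 2).trans (ball_mono z (by omega))).trans subset_union_right).trans
          subset_union_left
  · exact ⟨fun _ => (ball_mono q (by omega)).trans (hs q hq).2,
      (hs q hq).2.trans subset_union_left⟩

/-- a walk of length `≤ ρ` from `x` to `y`: its `j`-th vertex is in
`ball y (ρ - j)` and in `ball x j` -/
lemma inv_ball {x y : V} {ρ : ℕ} (h : x ∈ ball G y ρ) : Inv G (ball G y ρ) x y ρ := by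
  obtain ⟨s, hs'⟩ := mem_ball_iff.1 (ball_symm h)
  refine ⟨h, s, hs', fun q hq => ?_⟩
  obtain ⟨i, j, hij, hi, hj⟩ := support_ball s hq
  constructor
  · intro hne
    have hi0 : i ≠ 0 := by
      rintro rfl
      exact hne (by simpa [ball] using hi)
    exact (ball_add hj 1).trans (ball_mono y (by omega))
  · rcases le_or_gt i 1 with h1 | h1
    · exact ((ball_add hi 2).trans (ball_mono x (by omega))).trans subset_union_right
    · exact ((ball_add hj 2).trans (ball_mono y (by omega))).trans subset_union_left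

end Crest.Agent.N334.T
end

-- ▼ part N334/T/Hover
section

/-!
# Row 334, engine T: one step of the recursion (helper86)
-/

set_option autoImplicit false
set_option linter.unusedSectionVars false

open MeasureTheory Complex Finset Function
open scoped ENNReal

namespace Crest.Agent.N334.T

variable {V : Type} [Fintype V] [DecidableEq V] (E : Env V)

namespace Hv

/-- indicator of `|phi T| < c` with `Q` frozen -/
noncomputable def HI (T Q : Finset V) (c : ℝ) (w : V → ℂ) : ℝ≥0∞ :=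
  if ‖phi E.G E.η T (fz E.r Q w)‖ < c then 1 else 0

/-- indicator of a loss of a factor `ε` at the site `x` -/
noncomputable def SI (T Q : Finset V) (x : V) (ε : ℝ) (w : V → ℂ) : ℝ≥0∞ :=
  if ‖phi E.G E.η T (fz E.r Q w)‖ < ε * ‖phi E.G E.η T (fz E.r (insert x Q) w)‖ then 1 else 0

/-- the weight of the site `x` in the resolvent expansion -/
noncomputable def UW (Q : Finset V) (z x : V) (w : V → ℂ) : ℝ≥0∞ :=
  ENNReal.ofReal (‖Gr E.G E.η (fz E.r Q w) z x‖ ^ 2 * ‖cl (w x) - cl (E.r x)‖ ^ 2)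

lemma measurable_HI (T Q : Finset V) (c : ℝ) : Measurable (HI E T Q c) :=
  Measurable.ite (measurableSet_lt ((measurable_phi T).comp (measurable_fz _ _)).norm
    measurable_const) measurable_const measurable_const

lemma measurable_SI (T Q : Finset V) (x : V) (ε : ℝ) : Measurable (SI E T Q x ε) :=
  Measurable.ite (measurableSet_lt ((measurable_phi T).comp (measurable_fz _ _)).norm
    (((measurable_phi T).comp (measurable_fz _ _)).norm.const_mul ε)) measurable_const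
    measurable_const

lemma measurable_UW (Q : Finset V) (z x : V) : Measurable (UW E Q z x) :=
  ((((measurable_Gr z x).comp (measurable_fz _ _)).norm.pow_const 2).fun_mul
    (((measurable_cl.comp (measurable_pi_apply x)).sub_const _).norm.pow_const 2)).ennreal_ofReal

lemma HI_split (T Q : Finset V) (x : V) {ε : ℝ} (hε : 0 ≤ ε) (c : ℝ) (w : V → ℂ) :
    HI E T Q (ε * c) w ≤ SI E T Q x ε w + HI E T (insert x Q) c w := by
  unfold HI SI
  split_ifs with h1 h2 h3 h3 <;> try simp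
  exact absurd (h1.trans_le (mul_le_mul_of_nonneg_left (not_lt.1 h3) hε)) h2

lemma HI_update (T Q : Finset V) (x : V) (c : ℝ) (w : V → ℂ) (z : ℂ) :
    HI E T (insert x Q) c (update w x z) = HI E T (insert x Q) c w := by
  simp only [HI, fz_update_mem _ _ (mem_insert_self x Q)]

lemma SI_update {T Q : Finset V} {x : V} (hT : x ∉ T) (hQ : x ∉ Q) (ε : ℝ) {w : V → ℂ} {m : ℂ}
    {ρ : V → ℂ} {q : V → V → ℂ} (h : Cav E.G E.η (fz E.r Q w) x m ρ q) :
    ∃ m' : ℂ, 0 < m'.im ∧ ∀ z, SI E T Q x ε (update w x z) ≤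
      (small (E.r x) m m' ε).indicator 1 z := by
  obtain ⟨m', h1, h2⟩ := phi_update E.η0 E.η1 hT h
  refine ⟨m', E.η0.trans_le h1, fun z => ?_⟩
  rw [SI, fz_update_mem _ _ (mem_insert_self x Q), fz_update_notMem _ _ hQ, fz_insert]
  split_ifs with h3
  · refine (Set.indicator_of_mem ?_ (1 : ℂ → ℝ≥0∞)).ge
    have hA : 0 < ‖phi E.G E.η T (update (fz E.r Q w) x (E.r x))‖ :=
      norm_pos_iff.2 (div_ne_zero (dt_ne E.η0 _ _) (dt_ne E.η0 _ _))
    have hB : 0 < ‖(cl z - m) / (cl (E.r x) - m)‖ :=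
      norm_pos_iff.2 (div_ne_zero (h.ne E.η0 _) (h.ne E.η0 _))
    rw [h2 z (E.r x), norm_div, norm_mul, div_lt_iff₀ hB, mul_right_comm, mul_comm] at h3
    exact lt_of_mul_lt_mul_right h3 hA.le
  · exact zero_le

variable {E} {Λ ε : ℝ}

lemma eps_le {x : V} (hΛ : E.Λ x ≤ Λ) (hε1 : ε ≤ (Λ ^ 2)⁻¹) : ε ≤ (E.Λ x ^ 2)⁻¹ := by
  have := (E.law x).big
  exact hε1.trans (inv_anti₀ (by positivity) (by gcongr))

lemma site_SI {T Q : Finset V} {x : V} (hT : x ∉ T) (hQ : x ∉ Q) (hΛ : E.Λ x ≤ Λ) (hε : 0 < ε)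
    (hε1 : ε ≤ (Λ ^ 2)⁻¹) (w : V → ℂ) :
    ∫⁻ z, SI E T Q x ε (update w x z) ∂E.μ x ≤ ENNReal.ofReal (Λ ^ 3 * ε) := by
  obtain ⟨m, ρ, q, h⟩ := exists_cav (G := E.G) E.η0 E.η1 (fz E.r Q w) x
  obtain ⟨m', h1, h2⟩ := SI_update E hT hQ ε h
  refine (lintegral_mono h2).trans ?_
  rw [lintegral_indicator_one (measurableSet_small _ _ _ _)]
  have := (E.law x).big
  exact ((E.law x).toLaw0.moeb_prob (E.η0.trans_le h.im_ge) h1 hε (eps_le hΛ hε1)).trans
    (ENNReal.ofReal_le_ofReal (by gcongr))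

/-- LEMMA A -/
lemma lm_HI {T X : Finset V} (hT : Disjoint X T) (hΛ0 : 0 ≤ Λ) (hΛ : ∀ x ∈ X, E.Λ x ≤ Λ)
    (hε : 0 < ε) (hε1 : ε ≤ (Λ ^ 2)⁻¹) {c : ℝ} (S : Finset V) (hS : S ⊆ X) :
    ∀ Q : Finset V, Disjoint S Q → (∀ w, c ≤ ‖phi E.G E.η T (fz E.r (Q ∪ S) w)‖) → ∀ w,
      lmarginal E.μ X (HI E T Q (ε ^ S.card * c)) w ≤ ENNReal.ofReal (S.card * (Λ ^ 3 * ε)) := by
  induction S using Finset.induction_on with
  | empty =>
    intro Q _ hc w
    refine (lm_mono E.μ X (g := fun _ => 0) (fun w => ?_) w).trans (by simp [lm_const])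
    have := hc w
    rw [union_empty] at this
    simp [HI, this]
  | insert x S hx ih =>
    intro Q hQ hc w
    have hxX := hS (mem_insert_self x S)
    rw [card_insert_of_notMem hx, pow_succ', mul_assoc]
    refine (lm_mono E.μ X (HI_split E T Q x hε.le _) w).trans ?_
    rw [lm_add _ _ (measurable_SI E T Q x ε), Nat.cast_succ, add_mul, one_mul, add_comm _ (_ * ε),
      ENNReal.ofReal_add (by positivity) (by positivity)]
    refine add_le_add ?_ (ih ((subset_insert x S).trans hS) _ ?_ (fun w => ?_) w)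
    · rw [lm_site E.μ hxX (measurable_SI E T Q x ε)]
      exact (lm_mono E.μ X (site_SI (disjoint_left.1 hT hxX) (disjoint_left.1 hQ
        (mem_insert_self x S)) (hΛ x hxX) hε hε1) w).trans_eq (lm_const _ _ _ _)
    · exact disjoint_insert_right.2 ⟨hx, (disjoint_insert_left.1 hQ).2⟩
    · rw [insert_union, ← union_insert]
      exact hc w

lemma UW_update {Q : Finset V} {x z : V} (hQ : x ∉ Q) (hz : z ∈ Q) (hΛ : E.Λ z ≤ Λ) {w : V → ℂ}
    {m : ℂ} {ρ : V → ℂ} {q : V → V → ℂ} (h : Cav E.G E.η (fz E.r Q w) x m ρ q) (v : ℂ) :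
    UW E Q z x (update w x v) ≤ ENNReal.ofReal Λ *
      ENNReal.ofReal ((1 + ‖cl v - cl (E.r x)‖ ^ 2) * (m.im / ‖cl v - m‖ ^ 2)) := by
  have h0 := (E.law z).big
  have h1 := h.ward1 E.η0 (p := z) fun e => hQ (e ▸ hz)
  rw [fz_mem hz] at h1
  have h2 : Λ⁻¹ ≤ dmp E.η (E.r z) :=
    (inv_anti₀ (by positivity) hΛ).trans ((E.law z).sig.trans (le_add_of_nonneg_left E.η0.le))
  have h3 : ‖ρ z‖ ^ 2 ≤ Λ * m.im := by
    rw [← inv_mul_le_iff₀ (by linarith)]
    exact (mul_le_mul_of_nonneg_right h2 (sq_nonneg _)).trans h1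
  rw [UW, fz_update_notMem _ _ hQ, h.col, update_self, ← ENNReal.ofReal_mul (by linarith)]
  refine ENNReal.ofReal_le_ofReal ?_
  have h4 : 0 ≤ Λ * m.im := (sq_nonneg _).trans h3
  calc _ = ‖ρ z‖ ^ 2 * ‖cl v - cl (E.r x)‖ ^ 2 / ‖cl v - m‖ ^ 2 := by
        rw [norm_div, div_pow]; ring
    _ ≤ Λ * m.im * (1 + ‖cl v - cl (E.r x)‖ ^ 2) / ‖cl v - m‖ ^ 2 := by
        gcongr
        linarith
    _ = _ := by ring

/-- LEMMA B -/
lemma lm_UW {T X Q : Finset V} (hT : Disjoint X T) (hQ : Disjoint X Q) (hX : X.card ≤ 85)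
    (hΛ0 : 100 ≤ Λ) (hΛ : ∀ x ∈ X, E.Λ x ≤ Λ) (hε : 0 < ε) (hε1 : ε ≤ (Λ ^ 2)⁻¹) {c : ℝ}
    (hc : ∀ w, c ≤ ‖phi E.G E.η T (fz E.r (Q ∪ X) w)‖) {x z : V} (hx : x ∈ X) (hz : z ∈ Q)
    (hΛz : E.Λ z ≤ Λ) (w : V → ℂ) :
    lmarginal E.μ X (fun w => UW E Q z x w * HI E T Q (ε ^ X.card * c) w) w ≤
      ENNReal.ofReal (681 * Λ ^ 5 * ε) := by
  have hxQ := disjoint_left.1 hQ hx
  have hb := (E.law x).big
  have hΛx := hΛ x hx
  rw [← card_erase_add_one hx, pow_succ', mul_assoc ε]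
  refine (lm_mono E.μ X (fun w => (mul_le_mul_right (HI_split E T Q x hε.le _ w) _).trans_eq
    (mul_add _ _ _)) w).trans ?_
  have m1 := (measurable_UW E Q z x).fun_mul (measurable_SI E T Q x ε)
  have m2 := (measurable_UW E Q z x).fun_mul
    (measurable_HI E T (insert x Q) (ε ^ (X.erase x).card * c))
  have e : 681 * Λ ^ 5 * ε = Λ ^ 5 * ε + 8 * Λ ^ 2 * (85 * (Λ ^ 3 * ε)) := by ring
  rw [lm_add _ _ m1, e, ENNReal.ofReal_add (by positivity) (by positivity)]
  refine add_le_add ?_ ?_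
  · rw [lm_site E.μ hx m1]
    refine (lm_mono E.μ X (fun w => ?_) w).trans_eq (lm_const _ _ _ _)
    obtain ⟨m, ρ, q, h⟩ := exists_cav (G := E.G) E.η0 E.η1 (fz E.r Q w) x
    obtain ⟨m', h1, h2⟩ := SI_update E (disjoint_left.1 hT hx) hxQ ε h
    refine (lintegral_mono (g := (small (E.r x) m m' ε).indicator fun v => ENNReal.ofReal Λ *
      ENNReal.ofReal ((1 + ‖cl v - cl (E.r x)‖ ^ 2) * (m.im / ‖cl v - m‖ ^ 2))) fun v => ?_).trans ?_
    · refine (mul_le_mul' (UW_update hxQ hz hΛz h v) (h2 v)).trans_eq ?_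
      by_cases hv : v ∈ small (E.r x) m m' ε <;> simp [hv]
    · rw [lintegral_indicator (measurableSet_small _ _ _ _),
        lintegral_const_mul' _ _ ENNReal.ofReal_ne_top]
      refine (mul_le_mul_right ((E.law x).toLaw0.moeb_wt (E.η0.trans_le h.im_ge) h1 hε
        (eps_le hΛx hε1)) _).trans ?_
      rw [← ENNReal.ofReal_mul (by linarith)]
      refine ENNReal.ofReal_le_ofReal ?_
      calc _ ≤ Λ * (Λ ^ 2 * ε) * 1 := by rw [mul_one]; gcongr
        _ ≤ Λ * (Λ ^ 2 * ε) * Λ ^ 2 := by gcongr; nlinarith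
        _ = _ := by ring
  · rw [lm_site E.μ hx m2]
    refine (lm_mono E.μ X (g := fun w => ENNReal.ofReal (8 * Λ ^ 2) *
      HI E T (insert x Q) (ε ^ (X.erase x).card * c) w) (fun w => ?_) w).trans ?_
    · obtain ⟨m, ρ, q, h⟩ := exists_cav (G := E.G) E.η0 E.η1 (fz E.r Q w) x
      simp only [HI_update]
      rw [lintegral_mul_const' _ _ (by unfold HI; split_ifs <;> simp)]
      refine mul_le_mul_left ((lintegral_mono (UW_update hxQ hz hΛz h)).trans ?_) _
      rw [lintegral_const_mul' _ _ ENNReal.ofReal_ne_top]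
      refine (mul_le_mul_right ((E.law x).u2.u1 (by linarith) (E.η0.trans_le h.im_ge)) _).trans ?_
      rw [← ENNReal.ofReal_mul (by linarith)]
      exact ENNReal.ofReal_le_ofReal (by nlinarith)
    · rw [lm_const_mul _ _ _ (measurable_HI E T _ _), ENNReal.ofReal_mul (p := 8 * Λ ^ 2) (by positivity)]
      refine mul_le_mul_right ((lm_HI hT (by linarith) hΛ hε hε1 _ (erase_subset x X) _ ?_
        (fun w => ?_) w).trans (ENNReal.ofReal_le_ofReal ?_)) _
      · exact disjoint_insert_right.2 ⟨notMem_erase x X, hQ.mono_left (erase_subset x X)⟩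
      · rw [insert_union, ← union_insert, insert_erase hx]
        exact hc w
      · have : ((X.erase x).card : ℝ) ≤ 85 := by exact_mod_cast card_erase_le.trans hX
        gcongr

/-- the resolvent expansion -/
lemma expand {X Q : Finset V} (hQ : Disjoint X Q) (hX : X.card ≤ 85) (z b : V) (w : V → ℂ) :
    ENNReal.ofReal (‖Gr E.G E.η (fz E.r Q w) z b‖ ^ 2) ≤ ENNReal.ofReal 170 *
      (ENNReal.ofReal (‖Gr E.G E.η (fz E.r (Q ∪ X) w) z b‖ ^ 2) + ∑ x ∈ X,
        ENNReal.ofReal (‖Gr E.G E.η (fz E.r (Q ∪ X) w) x b‖ ^ 2) * UW E Q z x w) := by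
  have h1 := resolvent_fz (G := E.G) E.η0 E.r (fz E.r Q w) X z b
  rw [fz_fz, union_comm] at h1
  simp only [UW]
  rw [sum_congr rfl fun x _ => (ENNReal.ofReal_mul (sq_nonneg _)).symm,
    ← ENNReal.ofReal_sum_of_nonneg fun x _ => by positivity,
    ← ENNReal.ofReal_add (by positivity) (by positivity), ← ENNReal.ofReal_mul (by norm_num)]
  refine ENNReal.ofReal_le_ofReal ?_
  set f : V → ℝ := fun v => ‖Gr E.G E.η (fz E.r Q w) z v * (cl (fz E.r Q w v) - cl (E.r v)) *
    Gr E.G E.η (fz E.r (Q ∪ X) w) v b‖ with hf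
  have h2 : ‖Gr E.G E.η (fz E.r Q w) z b‖ ≤ ‖Gr E.G E.η (fz E.r (Q ∪ X) w) z b‖ + ∑ v ∈ X, f v :=
    h1.symm ▸ (norm_sub_le _ _).trans (add_le_add_right (norm_sum_le _ _) _)
  have h3 : (∑ v ∈ X, f v) ^ 2 ≤ 85 * ∑ v ∈ X, f v ^ 2 :=
    sq_sum_le_card_mul_sum_sq.trans (mul_le_mul_of_nonneg_right (by exact_mod_cast hX)
      (sum_nonneg fun _ _ => sq_nonneg _))
  have h4 : ∑ v ∈ X, f v ^ 2 = ∑ x ∈ X, ‖Gr E.G E.η (fz E.r (Q ∪ X) w) x b‖ ^ 2 *
      (‖Gr E.G E.η (fz E.r Q w) z x‖ ^ 2 * ‖cl (w x) - cl (E.r x)‖ ^ 2) :=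
    sum_congr rfl fun v hv => by
      simp only [hf, norm_mul, fz_notMem (disjoint_left.1 hQ hv)]
      ring
  rw [← h4]
  have h5 := pow_le_pow_left₀ (norm_nonneg _) h2 2
  nlinarith [sq_nonneg (‖Gr E.G E.η (fz E.r (Q ∪ X) w) z b‖ - ∑ v ∈ X, f v),
    sq_nonneg ‖Gr E.G E.η (fz E.r (Q ∪ X) w) z b‖]

variable {W : (V → ℂ) → ℝ≥0∞} {b : V} {k : ℝ}

/-- the part of the average on the exceptional set -/
lemma on_H (hW : Temp W b k) {T X Q : Finset V} (hb : b ∉ X) (hT : Disjoint X T)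
    (hQ : Disjoint X Q) (hX : X.card ≤ 85) (hΛ0 : 100 ≤ Λ) (hΛ : ∀ x ∈ X, E.Λ x ≤ Λ) (hε : 0 < ε)
    (hε1 : ε ≤ (Λ ^ 2)⁻¹) {c : ℝ} (hc : ∀ w, c ≤ ‖phi E.G E.η T (fz E.r (Q ∪ X) w)‖) {z : V}
    (hz : z ∈ Q) (hΛz : E.Λ z ≤ Λ) :
    ∫⁻ w, W (fz E.r Q w) * ENNReal.ofReal (‖Gr E.G E.η (fz E.r Q w) z b‖ ^ 2) *
        HI E T Q (ε ^ X.card * c) w ∂Measure.pi E.μ ≤
      ENNReal.ofReal (Real.exp 90 * Λ ^ 7 * ε) * ∑ v ∈ insert z X, E.Aq W b (Q ∪ X) v := by
  set a : V → (V → ℂ) → ℝ≥0∞ := fun v w => W (fz E.r (Q ∪ X) w) *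
    ENNReal.ofReal (‖Gr E.G E.η (fz E.r (Q ∪ X) w) v b‖ ^ 2) with ha
  have ma : ∀ v, Measurable (a v) := fun v => (hW.1.comp (measurable_fz _ _)).fun_mul
    (((measurable_Gr v b).comp (measurable_fz _ _)).norm.pow_const 2).ennreal_ofReal
  have ia : ∀ v w, a v (fz E.r X w) = a v w := fun v w => by
    simp only [ha, fz_fz, union_assoc, union_idempotent]
  have mH := measurable_HI E T Q (ε ^ X.card * c)
  have mU := fun x => (measurable_UW E Q z x).fun_mul mH
  have hzX : z ∉ X := disjoint_right.1 hQ hz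
  have h1 : ∀ w, W (fz E.r Q w) * ENNReal.ofReal (‖Gr E.G E.η (fz E.r Q w) z b‖ ^ 2) *
      HI E T Q (ε ^ X.card * c) w ≤ ENNReal.ofReal (Real.exp 85 * 170) *
        (a z w * HI E T Q (ε ^ X.card * c) w +
          ∑ x ∈ X, a x w * (UW E Q z x w * HI E T Q (ε ^ X.card * c) w)) := fun w => by
    have h2 := hW.le_fz E.r hb (fz E.r Q w)
    rw [fz_fz, union_comm] at h2
    have h3 : ENNReal.ofReal (Real.exp (k * X.card)) ≤ ENNReal.ofReal (Real.exp 85) := by
      have : (X.card : ℝ) ≤ 85 := by exact_mod_cast hX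
      exact ENNReal.ofReal_le_ofReal (Real.exp_le_exp.2
        ((mul_le_of_le_one_left (Nat.cast_nonneg _) hW.2.2.1).trans this))
    refine (mul_le_mul_left (mul_le_mul' (h2.trans (mul_le_mul_left h3 _))
      (expand hQ hX z b w)) _).trans_eq ?_
    simp only [ENNReal.ofReal_mul (Real.exp_pos _).le, ha, mul_add, add_mul, mul_sum, sum_mul]
    congr 1
    · ring
    · exact sum_congr rfl fun x _ => by ring
  refine (lintegral_mono h1).trans ((lint_le_of_lm E.μ X (g := fun w =>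
    ENNReal.ofReal (Real.exp 90 * Λ ^ 7 * ε) * ∑ v ∈ insert z X, a v w)
    ((((ma z).fun_mul mH).fun_add (measurable_sum _ fun x _ => (ma x).fun_mul (mU x))).const_mul _)
    fun w => ?_).trans_eq ?_)
  · rw [lm_const_mul _ _ _ (((ma z).fun_mul mH).fun_add (measurable_sum _ fun x _ => (ma x).fun_mul (mU x))),
      lm_add _ _ ((ma z).fun_mul mH), lm_sum _ _ _ fun x _ => (ma x).fun_mul (mU x),
      lm_mul _ E.r X (ia z) mH, sum_congr rfl fun x _ => lm_mul _ E.r X (ia x) (mU x) w]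
    have h2 : lmarginal E.μ X (HI E T Q (ε ^ X.card * c)) w ≤ ENNReal.ofReal (681 * Λ ^ 5 * ε) := by
      refine (lm_HI hT (by linarith) hΛ hε hε1 X Subset.rfl Q hQ hc w).trans
        (ENNReal.ofReal_le_ofReal ?_)
      have : (X.card : ℝ) ≤ 85 := by exact_mod_cast hX
      calc _ ≤ 681 * (Λ ^ 3 * ε) * 1 := by rw [mul_one]; gcongr; linarith
        _ ≤ 681 * (Λ ^ 3 * ε) * Λ ^ 2 := by gcongr; nlinarith
        _ = _ := by ring
    refine (mul_le_mul_right (add_le_add (mul_le_mul_right h2 _) (sum_le_sum fun x hx =>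
      mul_le_mul_right (lm_UW hT hQ hX hΛ0 hΛ hε hε1 hc hx hz hΛz w) _)) _).trans ?_
    rw [← sum_mul, ← add_mul, ← sum_insert (f := fun v => a v w) hzX, mul_comm (∑ v ∈ _, _),
      ← mul_assoc, ← ENNReal.ofReal_mul (by positivity)]
    refine mul_le_mul_left (ENNReal.ofReal_le_ofReal ?_) _
    have h3 : Real.exp 90 = Real.exp 85 * Real.exp 5 := by rw [← Real.exp_add]; norm_num
    have h4 : 18 ≤ Real.exp 5 := le_trans (by norm_num)
      (Real.quadratic_le_exp_of_nonneg (show (0 : ℝ) ≤ 5 by norm_num))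
    calc _ = Real.exp 85 * (Λ ^ 5 * ε) * (170 * 681) := by ring
      _ ≤ Real.exp 85 * (Λ ^ 5 * ε) * (Real.exp 5 * Λ ^ 2) :=
          mul_le_mul_of_nonneg_left (le_trans (by norm_num) (mul_le_mul h4
            (show (10000 : ℝ) ≤ Λ ^ 2 by nlinarith) (by norm_num) (Real.exp_pos _).le))
            (by positivity)
      _ = _ := by rw [h3]; ring
  · rw [lintegral_const_mul _ (measurable_sum _ fun v _ => ma v),
      lintegral_finsetSum _ fun v _ => ma v]
    rfl

end Hv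

open Hv

namespace Env

theorem hover {W : (V → ℂ) → ℝ≥0∞} {b : V} {k : ℝ} (hW : Temp W b k) {R : Finset V} {z y x₀ : V}
    {l : ℕ} (hI : Inv E.G R z x₀ l) (hb : b ∉ R ∪ ball E.G z 3) {L a₀ ε : ℝ}
    (hL : ∀ x ∈ ball E.G x₀ (l + 3), Real.log (E.Λ x) ≤ L) (ha : 0 < a₀)
    (hobs : ∀ w, a₀ ≤ ‖Gr E.G E.η (fz E.r R w) y x₀‖) (hε : 0 < ε) (hε1 : ε ≤ Real.exp (-(2 * L))) :
    E.Aq W b R z ≤
      ENNReal.ofReal (Real.exp (k * R.card + 12 * ∑ x ∈ R, E.κ x + 80 * (l + 1) * L) /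
        (a₀ ^ 2 * ε ^ 170)) * Rq E.G E.η E.μ W y b +
      if ball E.G z 3 ⊆ R then 0 else ENNReal.ofReal (Real.exp (90 + 7 * L) * ε) *
        ∑ z' ∈ ball E.G z 3, E.Aq W b (R ∪ ball E.G z 3) z' := by
  obtain ⟨P, N, hR, hx, hz, hd, hP, hN, ht, hzb, hnb⟩ := hI.thread E.deg
  have hΛ : ∀ x ∈ ball E.G x₀ (l + 3), E.Λ x ≤ Real.exp L := fun x hx =>
    (Real.log_le_iff_le_exp (by linarith [(E.law x).big])).1 (hL x hx)
  have hΛ0 : 100 ≤ Real.exp L := (E.law x₀).big.trans (hΛ x₀ (self_mem_ball _ _))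
  have hL0 : 0 ≤ L := Real.one_le_exp_iff.1 (by linarith)
  have hε2 : ε ≤ (Real.exp L ^ 2)⁻¹ := by
    rwa [← Real.exp_nat_mul, ← Real.exp_neg]
  have hε3 : ε ≤ 1 := hε1.trans (Real.exp_le_one_iff.2 (by linarith))
  set X := ball E.G z 3 \ R with hX
  have hRX : R ∪ ball E.G z 3 = R ∪ X := union_sdiff_self_eq_union.symm
  have hX85 : X.card ≤ 85 := (card_le_card sdiff_subset).trans (card_ball3 E.deg z)
  have hXR : Disjoint X R := sdiff_disjoint
  set c := (Real.exp L ^ (2 * (P ∪ N).card))⁻¹ with hc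
  have hc0 : 0 < c := by positivity
  have hcφ : ∀ w, c ≤ ‖phi E.G E.η (P ∪ N) (fz E.r (R ∪ X) w)‖ := fun w => by
    refine phi_ge E.deg E.η0 E.η1 hΛ0 fun t ht => ⟨?_, fun n hn => ?_⟩
    · rw [fz_mem (mem_union_left _ (hR ht))]
      exact (E.law t).nr.trans (hΛ t (hnb t ht).1)
    · obtain ⟨h1, h2⟩ := mem_inter.1 ((hnb t ht).2 hn)
      rw [fz_mem (hRX ▸ h1)]
      exact (inv_anti₀ (by linarith [(E.law n).big]) (hΛ n h2)).trans
        ((E.law n).sig.trans (le_add_of_nonneg_left E.η0.le))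
  set C := Real.exp (12 * ∑ x ∈ R, E.κ x + 80 * (l + 1) * L) / (a₀ ^ 2 * ε ^ 170) with hC
  set f : (V → ℂ) → ℝ≥0∞ := fun w => ENNReal.ofReal (‖Gr E.G E.η w y b‖ ^ 2) with hf
  have mf : Measurable f := ((measurable_Gr y b).norm.pow_const 2).ennreal_ofReal
  have mW : Measurable fun w => W (fz E.r R w) := hW.1.comp (measurable_fz _ _)
  have h1 : ∀ w, W (fz E.r R w) * ENNReal.ofReal (‖Gr E.G E.η (fz E.r R w) z b‖ ^ 2) ≤
      ENNReal.ofReal C * lmarginal E.μ R (fun w => W (fz E.r R w) * f w) w +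
      W (fz E.r R w) * ENNReal.ofReal (‖Gr E.G E.η (fz E.r R w) z b‖ ^ 2) *
        HI E (P ∪ N) R (ε ^ X.card * c) w := fun w => by
    unfold HI
    split_ifs with h2
    · rw [mul_one]
      exact le_add_self
    rw [mul_zero, add_zero, lm_mul E.μ E.r R (a := fun w => W (fz E.r R w))
      (fun w => by simp only [fz_fz, union_idempotent]) mf, mul_left_comm]
    refine mul_le_mul_right (le_trans ?_ (mul_le_mul_right
      (E.lower hR hd hx hz ht (fun t ht => hL t (hnb t ht).1) w) _)) _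
    rw [← ENNReal.ofReal_mul (by positivity)]
    refine ENNReal.ofReal_le_ofReal ?_
    have h3 : ε ^ 85 * c ≤ ‖phi E.G E.η (P ∪ N) (fz E.r R w)‖ :=
      le_trans (mul_le_mul_of_nonneg_right (pow_le_pow_of_le_one hε.le hε3 hX85) hc0.le)
        (not_lt.1 h2)
    have h4 : ((P ∪ N).card : ℝ) ≤ 5 * l + 1 := by
      have := card_union_le P N
      exact_mod_cast (by omega : (P ∪ N).card ≤ 5 * l + 1)
    have h5 : (N.card : ℝ) ≤ 4 * l := by exact_mod_cast hN
    have h6 : 1 ≤ C * (Real.exp (-(12 * ∑ x ∈ R, E.κ x + 14 * (N.card + 2) * L)) *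
        (a₀ * (ε ^ 85 * c)) ^ 2) := by
      have e : C * (Real.exp (-(12 * ∑ x ∈ R, E.κ x + 14 * (N.card + 2) * L)) *
          (a₀ * (ε ^ 85 * c)) ^ 2) = Real.exp (12 * ∑ x ∈ R, E.κ x + 80 * (l + 1) * L) *
          Real.exp (-(12 * ∑ x ∈ R, E.κ x + 14 * (N.card + 2) * L)) * c ^ 2 := by
        rw [hC]
        field_simp
      rw [e, hc, ← Real.exp_nat_mul, ← Real.exp_neg, ← Real.exp_nat_mul, ← Real.exp_add,
        ← Real.exp_add, Real.one_le_exp_iff]
      push_cast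
      nlinarith [mul_le_mul_of_nonneg_right h4 hL0, mul_le_mul_of_nonneg_right h5 hL0,
        mul_nonneg (Nat.cast_nonneg l) hL0]
    have h7 := hobs w
    calc _ ≤ C * (Real.exp (-(12 * ∑ x ∈ R, E.κ x + 14 * (N.card + 2) * L)) *
          (a₀ * (ε ^ 85 * c)) ^ 2) * ‖Gr E.G E.η (fz E.r R w) z b‖ ^ 2 :=
          le_mul_of_one_le_left (sq_nonneg _) h6
      _ = C * (Real.exp (-(12 * ∑ x ∈ R, E.κ x + 14 * (N.card + 2) * L)) *
          (a₀ * (ε ^ 85 * c) * ‖Gr E.G E.η (fz E.r R w) z b‖) ^ 2) := by ring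
      _ ≤ _ := by gcongr
  refine (lintegral_mono h1).trans ?_
  rw [lintegral_add_left (((mW.fun_mul mf).lmarginal E.μ).const_mul _)]
  refine add_le_add ?_ ?_
  · rw [lintegral_const_mul _ ((mW.fun_mul mf).lmarginal E.μ), lint_lm E.μ R (mW.fun_mul mf)]
    refine (mul_le_mul_right (lintegral_mono fun w => mul_le_mul_left
      (hW.fz_le E.r (fun h => hb (mem_union_left _ h)) w) (f w)) _).trans_eq ?_
    simp only [mul_assoc]
    rw [lintegral_const_mul _ (hW.1.fun_mul mf), ← mul_assoc, ← ENNReal.ofReal_mul (by positivity),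
      hC, div_mul_eq_mul_div, ← Real.exp_add]
    congr 4
    ring
  · split_ifs with h2
    · have h3 : X = ∅ := sdiff_eq_empty_iff_subset.2 h2
      refine (lintegral_mono (g := fun _ => 0) fun w => ?_).trans_eq lintegral_zero
      have := hcφ w
      rw [h3, union_empty] at this
      simp [HI, h3, this]
    · refine (on_H hW (fun h => hb (hRX ▸ mem_union_right _ h)) (hXR.mono_right hR) hXR hX85 hΛ0
        (fun x hx => hΛ x (ball_add hzb 3 (mem_sdiff.1 hx).1)) hε hε2 hcφ hI.1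
        (hΛ z (ball_mono _ (Nat.le_add_right l 3) hzb))).trans ?_
      rw [← Real.exp_nat_mul, ← Real.exp_add, hRX]
      exact mul_le_mul_right (sum_le_sum_of_subset
        (insert_subset (self_mem_ball _ _) sdiff_subset)) _

end Env

end Crest.Agent.N334.T
end

-- ▼ part N334/T/TL

/-!
# Row 334, engine T: the transfer theorem (helper86)
-/

set_option autoImplicit false
set_option linter.unusedSectionVars false

open MeasureTheory Complex Finset Function
open scoped ENNReal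

namespace Crest.Agent.N334.T

variable {V : Type} [Fintype V] [DecidableEq V] (E : Env V)

namespace TLa

lemma exp_add_le {a b c : ℝ} (ha : a + 1 ≤ c) (hb : b + 1 ≤ c) :
    Real.exp a + Real.exp b ≤ Real.exp c := by
  have h : ∀ t, t + 1 ≤ c → 2 * Real.exp t ≤ Real.exp c := fun t ht => by
    have h1 := Real.exp_le_exp.2 ht
    rw [Real.exp_add] at h1
    have := Real.add_one_le_exp 1
    nlinarith [Real.exp_pos t]
  linarith [h a ha, h b hb]

lemma lam_ge {x₀ : V} {lam : ℝ} (hg : E.Grow x₀ lam) : 4 ≤ lam := by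
  have h1 := hg 0 x₀ (self_mem_ball _ _)
  have h2 := (E.law x₀).big
  have h3 : Real.exp 4 ≤ 100 := by
    have h4 : Real.exp 4 = Real.exp 1 ^ 4 := by rw [← Real.exp_nat_mul]; norm_num
    have h5 : Real.exp 1 ≤ 3 := by linarith [Real.exp_one_lt_d9]
    rw [h4]
    calc _ ≤ (3 : ℝ) ^ 4 := by gcongr
      _ ≤ 100 := by norm_num
  have h6 : (4 : ℝ) ≤ Real.log (E.Λ x₀) := by
    rw [Real.le_log_iff_exp_le (by linarith)]
    linarith
  simp only [Nat.cast_zero, zero_add, mul_one] at h1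
  linarith

/-- the exponent of the first coefficient of `hover` -/
lemma num1 {lam m i l k c c₀ S S₀ : ℝ} (hl : 4 ≤ lam) (hm : m = l + 4004) (hi : 0 ≤ i)
    (hil : 3 * i ≤ l) (hk0 : 0 ≤ k) (hk1 : k ≤ 1) (hc : c ≤ c₀ + 85 * i)
    (hS : S ≤ S₀ + 255 * i * (lam * m)) :
    k * c + 12 * S + 80 * (l + 1) * (lam * m) + 170 * (21010 * (lam * m)) + 1 ≤
      k * c₀ + 12 * S₀ + 3000 * lam * m ^ 2 := by
  have hm0 : 4004 ≤ m := by linarith
  have hL : 16016 ≤ lam * m := by nlinarith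
  have h1 : k * c ≤ k * c₀ + 85 * i := by nlinarith
  have h2 : i * (lam * m) ≤ m / 3 * (lam * m) := by gcongr; linarith
  have h3 : (l + 1) * (lam * m) ≤ m * (lam * m) := by gcongr; linarith
  have h4 : 4004 * (lam * m) ≤ m * (lam * m) := by gcongr
  have h5 : m * 16016 ≤ m * (lam * m) := by gcongr
  have h6 : 3000 * lam * m ^ 2 = 3000 * (m * (lam * m)) := by ring
  rw [h6]
  nlinarith

lemma num2 {lam m : ℝ} (hl : 4 ≤ lam) (hm : 4004 ≤ m) (c : ℝ) :
    5 + (90 + 7 * (lam * m) + -(21010 * (lam * m))) + (c + 3000 * lam * (m + 3) ^ 2) + 1 ≤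
      c + 3000 * lam * m ^ 2 := by
  have hL : 16016 ≤ lam * m := by nlinarith
  have h4 : lam * 4004 ≤ lam * m := by gcongr
  nlinarith

lemma num3 {lam m i D : ℝ} (hl : 4 ≤ lam) (hm : 4004 ≤ m) (him : 3 * i ≤ m) (c : ℝ) :
    5 + (90 + 7 * (lam * m) + -(21010 * (lam * m))) +
      (c + 30 * lam * (m + 3) - lam * max (D ^ 2 - (i + 1) ^ 2) 0) ≤
      c + 30 * lam * m - lam * max (D ^ 2 - i ^ 2) 0 := by
  have hL : 16016 ≤ lam * m := by nlinarith
  have h4 : lam * 4004 ≤ lam * m := by gcongr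
  have h5 : max (D ^ 2 - i ^ 2) 0 ≤ max (D ^ 2 - (i + 1) ^ 2) 0 + m := by
    refine max_le ?_ (by positivity)
    nlinarith [le_max_left (D ^ 2 - (i + 1) ^ 2) 0]
  have h6 : lam * max (D ^ 2 - i ^ 2) 0 ≤ lam * (max (D ^ 2 - (i + 1) ^ 2) 0 + m) := by gcongr
  nlinarith

lemma exp_five : (85 : ℝ) ≤ Real.exp 5 := by
  have h4 : Real.exp 5 = Real.exp 1 ^ 5 := by rw [← Real.exp_nat_mul]; norm_num
  have h5 : 2.7 ≤ Real.exp 1 := by linarith [Real.exp_one_gt_d9]
  rw [h4]
  calc (85 : ℝ) ≤ 2.7 ^ 5 := by norm_num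
    _ ≤ _ := by gcongr

lemma fin {A A' B C C' t s : ℝ} (h1 : A + 1 ≤ A') (h2 : 5 + (t + s) + B + 1 ≤ A')
    (h3 : 5 + (t + s) + C ≤ C') (a : ℝ) (X Y : ℝ≥0∞) :
    ENNReal.ofReal (Real.exp A / a ^ 2) * X + ENNReal.ofReal (Real.exp t * Real.exp s) *
      (ENNReal.ofReal (Real.exp 5) *
        (ENNReal.ofReal (Real.exp B / a ^ 2) * X + ENNReal.ofReal (Real.exp C) * Y)) ≤
      ENNReal.ofReal (Real.exp A' / a ^ 2) * X + ENNReal.ofReal (Real.exp C') * Y := by
  rw [← mul_assoc, ← ENNReal.ofReal_mul (by positivity), mul_add, ← mul_assoc, ← mul_assoc,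
    ← ENNReal.ofReal_mul (by positivity), ← ENNReal.ofReal_mul (by positivity), ← add_assoc,
    ← add_mul, ← ENNReal.ofReal_add (by positivity) (by positivity)]
  gcongr
  · rw [← mul_div_assoc, ← add_div, ← Real.exp_add, ← Real.exp_add, ← Real.exp_add]
    gcongr
    exact exp_add_le h1 (by linarith)
  · rw [← Real.exp_add, ← Real.exp_add, ← Real.exp_add]
    exact Real.exp_le_exp.2 (by linarith)

/-- the recursion -/
lemma key {W : (V → ℂ) → ℝ≥0∞} {b : V} {k : ℝ} (hW : Temp W b k) {R₀ : Finset V} {z₀ x₀ y : V}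
    {l D : ℕ} {lam a₀ : ℝ} {Bb : ℝ≥0∞}
    (hD : b ∉ ball E.G z₀ (3 * D)) (hg : E.Grow x₀ lam) (ha : 0 < a₀)
    (hobs : ∀ w, a₀ ≤ ‖Gr E.G E.η (fz E.r R₀ w) y x₀‖) (hB : E.HB W b k R₀ Bb) (n : ℕ) :
    ∀ (i : ℕ) (R : Finset V) (z : V), Fintype.card V ≤ R.card + n → R₀ ⊆ R → b ∉ R →
      R.card ≤ R₀.card + 85 * i →
      ∑ x ∈ R, E.κ x ≤ ∑ x ∈ R₀, E.κ x + 255 * i * (lam * (l + 3 * i + 4004)) →
      z ∈ ball E.G z₀ (3 * i) → Inv E.G R z x₀ (l + 3 * i) →
      E.Aq W b R z ≤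
        ENNReal.ofReal (Real.exp (k * R₀.card + 12 * ∑ x ∈ R₀, E.κ x +
          3000 * lam * (l + 3 * i + 4004) ^ 2) / a₀ ^ 2) * Rq E.G E.η E.μ W y b +
        ENNReal.ofReal (Real.exp (k * R₀.card + 30 * lam * (l + 3 * i + 4004) -
          lam * max ((D : ℝ) ^ 2 - i ^ 2) 0)) * Bb := by
  have hl := lam_ge E hg
  obtain ⟨-, hk0, hk1, -⟩ := id hW
  induction n with
  | zero =>
    intro i R z hn _ hb
    have : R = univ := Finset.eq_univ_of_card R (le_antisymm (card_le_univ R) (by simpa using hn))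
    exact absurd (this ▸ mem_univ b) hb
  | succ n ih =>
    intro i R z hn hR hb hc hS hz hI
    obtain ⟨m, hm⟩ : ∃ m : ℝ, m = l + 3 * i + 4004 := ⟨_, rfl⟩
    have hi0 : (0 : ℝ) ≤ i := Nat.cast_nonneg i
    have hl0 : (0 : ℝ) ≤ l := Nat.cast_nonneg l
    have hm0 : 4004 ≤ m := by linarith
    have hL0 : 16016 ≤ lam * m := by nlinarith
    have hc' : (R.card : ℝ) ≤ R₀.card + 85 * i := by exact_mod_cast hc
    have hzx : z ∈ ball E.G x₀ (l + 3 * i) := by
      obtain ⟨P, N, -, -, -, -, -, -, -, h, -⟩ := hI.thread E.deg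
      exact h
    have hL : ∀ x ∈ ball E.G x₀ (l + 3 * i + 3), Real.log (E.Λ x) ≤ lam * m := fun x hx => by
      refine (hg _ x hx).trans ?_
      push_cast
      gcongr
      linarith
    rw [← hm] at hS ⊢
    by_cases hbz : b ∈ ball E.G z 3
    · have hiD : D ≤ i := by
        by_contra hlt
        exact hD (ball_mono _ (by omega) (ball_add hz 3 hbz))
      have hiD' : (D : ℝ) ≤ i := by exact_mod_cast hiD
      have hmax : max ((D : ℝ) ^ 2 - i ^ 2) 0 = 0 :=
        max_eq_right (by nlinarith [Nat.cast_nonneg (α := ℝ) D])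
      refine (hB R hR hb z hI.1).trans (le_trans ?_ le_add_self)
      gcongr
      have h1 : E.Λ z ≤ Real.exp (lam * m) := by
        rw [← Real.log_le_iff_le_exp (by linarith [(E.law z).big])]
        exact hL z (ball_mono _ (by omega) hzx)
      calc _ ≤ Real.exp (lam * m) * Real.exp (k * R.card) := by gcongr
        _ = Real.exp (lam * m + k * R.card) := (Real.exp_add _ _).symm
        _ ≤ _ := by
          rw [hmax]
          gcongr
          have h2 : k * R.card ≤ k * R₀.card + 85 * i := by nlinarith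
          have h3 : 4 * m ≤ lam * m := by gcongr
          nlinarith
    · have hobs' : ∀ w, a₀ ≤ ‖Gr E.G E.η (fz E.r R w) y x₀‖ := fun w => by
        have := hobs (fz E.r R w)
        rwa [fz_fz, union_eq_right.2 hR] at this
      have hh := E.hover hW hI (y := y) (L := lam * m) (a₀ := a₀)
        (ε := Real.exp (-(21010 * (lam * m)))) (by simp [hb, hbz]) hL ha hobs' (Real.exp_pos _)
        (Real.exp_le_exp.2 (by linarith))
      have e1 : Real.exp (k * R.card + 12 * ∑ x ∈ R, E.κ x +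
          80 * (((l + 3 * i : ℕ) : ℝ) + 1) * (lam * m)) /
          (a₀ ^ 2 * Real.exp (-(21010 * (lam * m))) ^ 170) =
          Real.exp (k * R.card + 12 * ∑ x ∈ R, E.κ x + 80 * ((l + 3 * i) + 1) * (lam * m) +
            170 * (21010 * (lam * m))) / a₀ ^ 2 := by
        rw [← Real.exp_nat_mul, Real.exp_add _ (170 * _), mul_comm (a₀ ^ 2), ← div_div,
          div_eq_mul_inv (Real.exp _), ← Real.exp_neg]
        push_cast
        congr 3
        ring
      have n1 := num1 (lam := lam) (m := m) (i := i) (l := l + 3 * i) hl hm hi0 (by linarith)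
        hk0 hk1 hc' hS
      rw [e1] at hh
      split_ifs at hh with hsub
      · rw [add_zero] at hh
        refine hh.trans (le_trans ?_ le_self_add)
        gcongr ENNReal.ofReal (Real.exp ?_ / _) * _
        linarith
      · have hlt : R.card < (R ∪ ball E.G z 3).card :=
          card_lt_card (ssubset_of_subset_of_ne subset_union_left fun h =>
            hsub (h ▸ subset_union_right))
        have hc3 := card_ball3 E.deg z
        have hc3' : ((ball E.G z 3).card : ℝ) ≤ 85 := by exact_mod_cast hc3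
        have hS' : ∑ x ∈ R ∪ ball E.G z 3, E.κ x ≤
            ∑ x ∈ R₀, E.κ x + 255 * ((i + 1 : ℕ) : ℝ) *
              (lam * (l + 3 * ((i + 1 : ℕ) : ℝ) + 4004)) := by
          have h1 : ∑ x ∈ R ∪ ball E.G z 3, E.κ x ≤
              ∑ x ∈ R, E.κ x + ∑ x ∈ ball E.G z 3, E.κ x := by
            rw [← sum_union_inter]
            exact le_add_of_nonneg_right (sum_nonneg fun x _ => (E.law x).k0)
          have h2 : ∑ x ∈ ball E.G z 3, E.κ x ≤ (ball E.G z 3).card • (3 * (lam * m)) :=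
            sum_le_card_nsmul _ _ _ fun x hx => by
              linarith [(E.law x).kle, hL x (ball_add hzx 3 hx)]
          rw [nsmul_eq_mul] at h2
          have h3 : ((ball E.G z 3).card : ℝ) * (3 * (lam * m)) ≤ 85 * (3 * (lam * m)) := by
            gcongr
          have h4 : (l : ℝ) + 3 * ((i + 1 : ℕ) : ℝ) + 4004 = m + 3 := by
            push_cast
            linarith
          rw [h4]
          push_cast
          nlinarith [mul_nonneg hi0 (by linarith : (0 : ℝ) ≤ lam)]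
        have hstep : ∀ z' ∈ ball E.G z 3, E.Aq W b (R ∪ ball E.G z 3) z' ≤
            ENNReal.ofReal (Real.exp (k * R₀.card + 12 * ∑ x ∈ R₀, E.κ x +
              3000 * lam * (m + 3) ^ 2) / a₀ ^ 2) * Rq E.G E.η E.μ W y b +
            ENNReal.ofReal (Real.exp (k * R₀.card + 30 * lam * (m + 3) -
              lam * max ((D : ℝ) ^ 2 - (i + 1) ^ 2) 0)) * Bb := fun z' hz' => by
          have := ih (i + 1) (R ∪ ball E.G z 3) z' (by omega) (hR.trans subset_union_left)
            (by simp [hb, hbz]) ((card_union_le _ _).trans (by omega)) hS'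
            (ball_add hz 3 hz') (hI.step hz')
          have h4 : (l : ℝ) + 3 * ((i + 1 : ℕ) : ℝ) + 4004 = m + 3 := by
            push_cast
            linarith
          rw [h4] at this
          push_cast at this
          exact this
        have hsum := sum_le_card_nsmul _ _ _ hstep
        rw [nsmul_eq_mul] at hsum
        have hcE : ((ball E.G z 3).card : ℝ≥0∞) ≤ ENNReal.ofReal (Real.exp 5) := by
          rw [← ENNReal.ofReal_natCast]
          exact ENNReal.ofReal_le_ofReal (hc3'.trans exp_five)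
        refine hh.trans ?_
        refine (add_le_add le_rfl (mul_le_mul' le_rfl
          (hsum.trans (mul_le_mul' hcE le_rfl)))).trans ?_
        exact fin n1 (num2 hl hm0 _) (num3 hl hm0 (by linarith) _) _ _ _

end TLa

namespace Env

theorem tl {W : (V → ℂ) → ℝ≥0∞} {b : V} {k : ℝ} (hW : Temp W b k) {R₀ : Finset V} {z₀ x₀ y : V}
    {l D : ℕ} {lam a₀ : ℝ} {Bb : ℝ≥0∞} (hI : Inv E.G R₀ z₀ x₀ l) (hb : b ∉ R₀)
    (hD : b ∉ ball E.G z₀ (3 * D)) (hg : E.Grow x₀ lam) (ha : 0 < a₀)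
    (hobs : ∀ w, a₀ ≤ ‖Gr E.G E.η (fz E.r R₀ w) y x₀‖) (hB : E.HB W b k R₀ Bb) :
    E.Aq W b R₀ z₀ ≤
      ENNReal.ofReal (Real.exp (k * R₀.card + 12 * ∑ x ∈ R₀, E.κ x + 3000 * lam * (l + 4004) ^ 2) /
        a₀ ^ 2) * Rq E.G E.η E.μ W y b +
      ENNReal.ofReal (Real.exp (k * R₀.card + 30 * lam * (l + 4004) - lam * D ^ 2)) * Bb := by
  have := TLa.key E hW (l := l) hD hg ha hobs hB (Fintype.card V) 0 R₀ z₀ (by omega) subset_rfl hb
    (by omega) (by simp) (self_mem_ball _ _) hI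
  simpa [max_eq_left (sq_nonneg (D : ℝ))] using this

end Env

end Crest.Agent.N334.T
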