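import Crest.Agent.N334.Sw.Exp
import Crest.Agent.N334.I.Mix
import Crest.Agent.N334.T.Marg
import Crest.Agent.N334.Md.Laws
import Crest.Agent.N334.T.TL

-- ▼ part N334/Br/Defs
section

/-!
# Row 334, bridge from the engine `T` to `Sw.BPat`, `Sw.LCat`: change of coordinates
-/

set_option autoImplicit false

open MeasureTheory Complex Finset Function
open scoped ENNReal

noncomputable section

namespace Crest.Agent.N334.Br

open G I Sw

/-- from `a - i (η + γ)` to `a - E - i γ` -/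
def toT (E η : ℝ) (t : ℂ) : ℂ := ⟨t.re - E, -ga η t⟩

/-- and back -/
def frT (E η : ℝ) (z : ℂ) : ℂ := ⟨z.re + E, -(η + |z.im|)⟩

/-- the port matrix in the coordinates of `T` -/
def KT (L : G.Lat) (E η : ℝ) (w : L.X → ℂ) : L.Mat := Kw L E η fun x => frT E η (w x)

/-- average in a product ensemble -/
def Ip (L : G.Lat) (E η : ℝ) (μ : L.X → Measure ℂ) (F : L.Mat → ℝ) : ℝ :=
  ∫ w, F (Kw L E η w) ∂Measure.pi μ

/-- the hopping matrix is the adjacency matrix of `G` -/
def Adj (L : G.Lat) (G : SimpleGraph L.X) : Prop :=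
  ∀ x y, L.A x y = if y ∈ T.nbr G x then 1 else 0

variable {L : G.Lat} {E η : ℝ}

@[simp] theorem toT_re (t : ℂ) : (toT E η t).re = t.re - E := rfl
@[simp] theorem toT_im (t : ℂ) : (toT E η t).im = -ga η t := rfl
@[simp] theorem frT_re (z : ℂ) : (frT E η z).re = z.re + E := rfl
theorem abs_toT_im (t : ℂ) : |(toT E η t).im| = ga η t := by
  rw [toT_im, abs_neg, abs_of_nonneg (ga_nonneg _ _)]
@[simp] theorem ga_frT (z : ℂ) : ga η (frT E η z) = |z.im| := by simp [ga, frT]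

@[fun_prop] theorem measurable_toT : Measurable (toT E η) := by
  have : toT E η = fun t : ℂ => ((t.re - E : ℝ) : ℂ) + ((-ga η t : ℝ) : ℂ) * I := by
    funext t; apply Complex.ext <;> simp
  rw [this]; fun_prop

@[fun_prop] theorem measurable_frT : Measurable (frT E η) := by
  have : frT E η = fun t : ℂ => ((t.re + E : ℝ) : ℂ) + ((-(η + |t.im|) : ℝ) : ℂ) * I := by
    funext t; apply Complex.ext <;> simp [frT]
  rw [this]; fun_prop

theorem toT_pt {γ : ℝ} (hγ : 0 ≤ γ) (a : ℝ) : toT E η (pt (η + γ) a) = Md.sh E γ a := by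
  apply Complex.ext <;> simp [ga_pt η a hγ, pt_re]

theorem map_lift {γ : ℝ} (hγ : 0 ≤ γ) (ν : Measure ℝ) :
    (lift (η + γ) ν).map (toT E η) = Md.tl E γ ν := by
  unfold I.lift Md.tl
  rw [Measure.map_map measurable_toT (measurable_pt _)]
  congr 1; funext a; exact toT_pt hγ a

theorem map_lift_zero (ν : Measure ℝ) : (lift η ν).map (toT E η) = Md.tl E 0 ν := by
  simpa using map_lift (E := E) (η := η) le_rfl ν

instance (μ : Measure ℂ) [IsProbabilityMeasure μ] : IsProbabilityMeasure (μ.map (toT E η)) :=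
  Measure.isProbabilityMeasure_map measurable_toT.aemeasurable

theorem KT_toT (w : L.X → ℂ) : KT L E η (fun x => toT E η (w x)) = Kw L E η w := by
  simp only [KT, Kw, ga_frT, abs_toT_im, frT_re, toT_re, sub_add_cancel]

theorem KT_update (w : L.X → ℂ) (y : L.X) (z : ℂ) :
    KT L E η (update w y z) = Kw L E η (update (fun x => frT E η (w x)) y (frT E η z)) := by
  unfold KT; congr 1; funext x; by_cases h : x = y <;> simp [h]

theorem port_KT (hη : 0 < η) (w : L.X → ℂ) : IsPort (KT L E η w) := port_Kw L E hη _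

theorem Gr_eq {G : SimpleGraph L.X} (hA : Adj L G) (w : L.X → ℂ) :
    L.Gr (L.wv E η (fun x => |(w x).im|) fun x => (w x).re + E) = (T.Mx G η w)⁻¹ := by
  unfold Lat.Gr T.Mx
  congr 2
  · ext x y; simp only [Matrix.map_apply, hA x y, Matrix.of_apply]; split_ifs <;> simp
  · congr 1; funext x; apply Complex.ext <;> simp [Lat.wv]; ring

/-- `4 · strength · strength · |G|²` -/
theorem cc_KT {G : SimpleGraph L.X} (hA : Adj L G) (hη : 0 < η) (w : L.X → ℂ) (y x : L.X)
    (β : Bool) : cc (KT L E η w) (y, true) (x, β) =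
      4 * |(w y).im| * (if β then |(w x).im| else η) * ‖T.Gr G η w y x‖ ^ 2 := by
  simp only [cc, KT, Kw, Lat.Km, ga_frT, frT_re, Gr_eq hA, norm_mul, mul_pow, Complex.norm_real,
    Real.norm_eq_abs, sq_abs, Complex.norm_I, Complex.norm_ofNat, T.Gr]
  rw [Real.sq_sqrt (show 0 ≤ L.str η _ (y, true) from abs_nonneg _),
    Real.sq_sqrt (show 0 ≤ L.str η _ (x, β) by cases β; exacts [hη.le, abs_nonneg _])]
  cases β <;> simp [N334.G.Lat.str] <;> norm_num

theorem measurable_Kw : Measurable (Kw L E η) := by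
  refine measurable_pi_lambda _ fun p => measurable_pi_lambda _ fun q => ?_
  have hs : ∀ p : L.P, Measurable fun w : L.X → ℂ => L.str η (fun x => ga η (w x)) p := fun p => by
    unfold G.Lat.str; split_ifs <;> fun_prop
  have hM : ∀ x y, Measurable fun w : L.X → ℂ => (L.A.map Complex.ofReal +
      Matrix.diagonal (L.wv E η (fun x => ga η (w x)) fun x => (w x).re)) x y := fun x y => by
    simp only [Matrix.add_apply, Matrix.diagonal_apply, Lat.wv]
    split_ifs <;> fun_prop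
  have hc : Measurable fun M : L.X → L.X → ℂ => (Matrix.of M)⁻¹ p.1 q.1 := by
    simp only [Matrix.inv_def, Ring.inverse_eq_inv', Matrix.smul_apply, smul_eq_mul]
    have h0 : Continuous fun M : L.X → L.X → ℂ => Matrix.of M := continuous_id
    exact h0.matrix_det.measurable.inv.mul (h0.matrix_adjugate.matrix_elem _ _).measurable
  have h1 := hs p
  have h2 := hs q
  have h3 := hc.comp (measurable_pi_lambda _ fun x => measurable_pi_lambda _ fun y => hM x y)
  exact Measurable.mul (by fun_prop) h3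

theorem measurable_KT : Measurable (KT L E η) :=
  measurable_Kw.comp (measurable_pi_lambda _ fun x => measurable_frT.comp (measurable_pi_apply x))

theorem bm_Kw (hη : 0 < η) {F : L.Mat → ℝ} (hF : Nice F) : BM fun w => F (Kw L E η w) :=
  hF.bm measurable_Kw (port_Kw L E hη)

theorem Ip_nonneg (hη : 0 < η) (μ : L.X → Measure ℂ) {F : L.Mat → ℝ}
    (h0 : ∀ K, IsPort K → 0 ≤ F K) : 0 ≤ Ip L E η μ F :=
  integral_nonneg fun _ => h0 _ (port_Kw L E hη _)

theorem Ip_eq_lint (hη : 0 < η) (μ : L.X → Measure ℂ) [∀ x, IsProbabilityMeasure (μ x)]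
    {F : L.Mat → ℝ} (hF : Nice F) (h0 : ∀ K, IsPort K → 0 ≤ F K) :
    ENNReal.ofReal (Ip L E η μ F) =
      ∫⁻ w, ENNReal.ofReal (F (KT L E η w)) ∂Measure.pi fun x => (μ x).map (toT E η) := by
  rw [Ip, ofReal_integral_eq_lintegral_ofReal ((bm_Kw hη hF).integrable _)
    (ae_of_all _ fun _ => h0 _ (port_Kw L E hη _)),
    ← (measurePreserving_pi μ (fun x => (μ x).map (toT E η))
      fun _ => measurable_toT.measurePreserving _).lintegral_comp
      (f := fun w => ENNReal.ofReal (F (KT L E η w))) (hF.meas.comp measurable_KT).ennreal_ofReal]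
  simp only [KT_toT]

theorem Iw_eq {h : ℝ} (hh : 0 < h) (hη : 0 < η) (lab : Lab L.X h) (μ : L.X → Measure ℂ)
    [∀ x, IsProbabilityMeasure (μ x)] {F : L.Mat → ℝ} (hF : Nice F) :
    Iw lab E η μ F = ∑ l, lab.P l * Ip L E η (lab.law η μ l) F := by
  have := lab.isProb_law hh η μ
  exact lab.integral_ens η μ fun l => (bm_Kw hη hF).integrable _

theorem temp_KT {W : L.Mat → ℝ} {k : ℝ} (h : Temp E η W k) (k0 : 0 ≤ k) (k1 : k ≤ 1) (b : L.X) :
    T.Temp (fun w => ENNReal.ofReal (W (KT L E η w))) b k :=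
  ⟨(h.1.meas.comp measurable_KT).ennreal_ofReal, k0, k1, fun w x z _ => by
    beta_reduce
    rw [← ENNReal.ofReal_mul (Real.exp_pos _).le, KT_update]
    exact ENNReal.ofReal_le_ofReal (h.2.2 _ _ _)⟩

theorem temp_KT_update {W : L.Mat → ℝ} {k : ℝ} (hη : 0 < η) (h : Temp E η W k) (k0 : 0 ≤ k)
    (k1 : k ≤ 1) (y : L.X) (v : ℂ) (b : L.X) :
    T.Temp (fun w => ENNReal.ofReal (W (KT L E η (update w y v)))) b k :=
  ⟨(h.1.meas.comp (measurable_KT.comp measurable_update_left)).ennreal_ofReal, k0, k1,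
    fun w x z _ => by
      beta_reduce
      rw [← ENNReal.ofReal_mul (Real.exp_pos _).le]
      refine ENNReal.ofReal_le_ofReal ?_
      rcases eq_or_ne x y with rfl | hx
      · rw [update_idem]
        exact le_mul_of_one_le_left (h.2.1 _ (port_KT hη _)) (Real.one_le_exp k0)
      · rw [update_comm hx, KT_update]; exact h.2.2 _ _ _⟩

end Crest.Agent.N334.Br
end
end

-- ▼ part N334/T/LC

/-!
# Row 334, engine T: a priori bounds and the local comparison (leaf T-LC)
-/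

set_option autoImplicit false
set_option linter.unusedSectionVars false

open MeasureTheory Complex Finset Function
open scoped ENNReal

namespace Crest.Agent.N334.T

variable {V : Type} [Fintype V] [DecidableEq V] (E : Env V)

namespace Lc

lemma site_bd (μ : V → Measure ℂ) [∀ x, IsProbabilityMeasure (μ x)] {a f : (V → ℂ) → ℝ≥0∞}
    (ha : Measurable a) (hf : Measurable f) (x : V) {c₁ c₂ : ℝ≥0∞}
    (h1 : ∀ w z, a (update w x z) ≤ c₁ * a w) (h2 : ∀ w, ∫⁻ z, f (update w x z) ∂μ x ≤ c₂) :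
    ∫⁻ w, a w * f w ∂Measure.pi μ ≤ c₁ * c₂ * ∫⁻ w, a w ∂Measure.pi μ := by
  rw [← lint_site μ x (f := fun w => a w * f w) (ha.mul hf), ← lintegral_const_mul _ ha]
  refine lintegral_mono fun w => ?_
  calc ∫⁻ z, a (update w x z) * f (update w x z) ∂μ x
      ≤ ∫⁻ z, c₁ * a w * f (update w x z) ∂μ x :=
        lintegral_mono fun z => mul_le_mul_left (h1 w z) _
    _ = c₁ * a w * ∫⁻ z, f (update w x z) ∂μ x :=
        lintegral_const_mul _ (hf.comp (measurable_update w))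
    _ ≤ c₁ * a w * c₂ := mul_le_mul_right (h2 w) _
    _ = _ := by ring

lemma inv_le_dmp {v : V} {L : ℝ} (h : E.Λ v ≤ L) : L⁻¹ ≤ dmp E.η (E.r v) := by
  have h0 : 0 < E.Λ v := by linarith [(E.law v).big]
  exact ((inv_anti₀ h0 h).trans (E.law v).sig).trans (le_add_of_nonneg_left E.η0.le)

lemma le_of_dmp {v : V} {L a c : ℝ} (h : E.Λ v ≤ L) (ha : 0 ≤ a) (hc : dmp E.η (E.r v) * a ≤ c) :
    a ≤ L * c := by
  have h0 : 0 < L := by linarith [(E.law v).big]
  have := (mul_le_mul_of_nonneg_right (inv_le_dmp E h) ha).trans hc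
  rwa [inv_mul_le_iff₀ h0] at this

lemma im_le_dmp (z : ℂ) : |z.im| ≤ dmp E.η z := le_add_of_nonneg_left E.η0.le

lemma im_le_norm (z : ℂ) (m : ℂ) : m.im ≤ ‖cl z - m‖ := by
  have h1 : -(cl z - m).im ≤ ‖cl z - m‖ := (neg_le_abs _).trans (abs_im_le_norm _)
  simp only [sub_im, cl_im] at h1
  linarith [abs_nonneg z.im]

/-- one-site average of `c |G(p,x)|² (1 + |t|²)` -/
lemma col_bd {ν : Measure ℂ} {r : ℂ} {Λ c : ℝ} (hu : U2 ν r Λ) (hΛ : 0 ≤ Λ) (w : V → ℂ) {p x : V}
    (hp : p ≠ x) (hc : c ≤ dmp E.η (w p)) :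
    ∫⁻ z, ENNReal.ofReal (c * ‖Gr E.G E.η (update w x z) p x‖ ^ 2 * (1 + ‖cl z - cl r‖ ^ 2)) ∂ν ≤
      ENNReal.ofReal (8 * Λ) := by
  obtain ⟨m, ρ, q, h⟩ := exists_cav (G := E.G) E.η0 E.η1 w x
  refine le_trans (lintegral_mono fun z => ENNReal.ofReal_le_ofReal ?_)
    (hu.u1 hΛ (E.η0.trans_le h.im_ge))
  rw [h.col, norm_div, div_pow, mul_comm, ← mul_div_assoc]
  have := h.ward1 E.η0 hp
  gcongr
  exact (mul_le_mul_of_nonneg_right hc (sq_nonneg _)).trans this

end Lc

open Lc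

namespace Env

/-- active source: `dmp_z dmp_b |G|² ≤ 1` (`off_le`), `Temp.fz_le` -/
lemma hb_act {W : (V → ℂ) → ℝ≥0∞} {b : V} {k : ℝ} (hW : Temp W b k) (R₀ : Finset V) :
    Temp (fun w => ENNReal.ofReal |(w b).im| * W w) b k ∧
      E.HB (fun w => ENNReal.ofReal |(w b).im| * W w) b k R₀ (∫⁻ w, W w ∂Measure.pi E.μ) := by
  refine ⟨⟨Measurable.mul (by fun_prop) hW.1, hW.2.1, hW.2.2.1, fun w x z hx => ?_⟩,
    fun R _ hb z hz => ?_⟩
  · simp only [update_of_ne hx.symm]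
    rw [mul_left_comm]
    exact mul_le_mul_right (hW.2.2.2 w x z hx) _
  · rw [Aq, ← lintegral_const_mul _ hW.1]
    refine lintegral_mono fun w => ?_
    have h1 : |(fz E.r R w b).im| * ‖Gr E.G E.η (fz E.r R w) z b‖ ^ 2 ≤ E.Λ z * 1 := by
      refine le_of_dmp E le_rfl (by positivity) ?_
      have := off_le (G := E.G) E.η0 (fz E.r R w) z b
      rw [fz_mem hz, mul_assoc] at this
      refine le_trans ?_ this
      gcongr
      · exact (dmp_pos E.η0 _).le
      · exact im_le_dmp E _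
    have h0 : 0 ≤ E.Λ z := by linarith [(E.law z).big]
    rw [mul_right_comm, ← ENNReal.ofReal_mul (abs_nonneg _), ENNReal.ofReal_mul h0, mul_assoc]
    exact mul_le_mul' (ENNReal.ofReal_le_ofReal (by linarith)) (hW.fz_le E.r hb w)

/-- passive source: integrate over `w b` first (`lint_site`, `Cav.col`, `Cav.ward1`, `U2.u1`) -/
lemma hb_pas {W : (V → ℂ) → ℝ≥0∞} {b : V} {k : ℝ} (hW : Temp W b k)
    (hWb : ∀ w z, W (update w b z) ≤ ENNReal.ofReal (Real.exp k) * W w) (R₀ : Finset V) :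
    E.HB W b k R₀ (ENNReal.ofReal (100 * E.Λ b) * ∫⁻ w, W w ∂Measure.pi E.μ) := by
  intro R _ hb z hz
  have hzb : z ≠ b := fun h => hb (h ▸ hz)
  have h0 : 0 < E.Λ z := by linarith [(E.law z).big]
  have h0b : 0 < E.Λ b := by linarith [(E.law b).big]
  have hm : Measurable fun w => ENNReal.ofReal (‖Gr E.G E.η (fz E.r R w) z b‖ ^ 2) :=
    (((measurable_Gr z b).comp (measurable_fz _ _)).norm.pow_const 2).ennreal_ofReal
  have h1 := site_bd E.μ hW.1 hm b (c₂ := ENNReal.ofReal (E.Λ z) * ENNReal.ofReal (8 * E.Λ b)) hWb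
    fun w => by
      have := col_bd E (E.law b).u2 h0b.le (fz E.r R w) hzb (c := (E.Λ z)⁻¹)
        (by rw [fz_mem hz]; exact inv_le_dmp E le_rfl)
      refine le_trans ?_ (mul_le_mul_right this _)
      rw [← lintegral_const_mul' _ _ ENNReal.ofReal_ne_top]
      refine lintegral_mono fun ζ => ?_
      rw [← ENNReal.ofReal_mul h0.le, fz_update_notMem _ _ hb, ← mul_assoc, ← mul_assoc,
        mul_inv_cancel₀ h0.ne', one_mul]
      exact ENNReal.ofReal_le_ofReal (le_mul_of_one_le_right (sq_nonneg _)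
        (le_add_of_nonneg_right (sq_nonneg _)))
  calc E.Aq W b R z ≤ ∫⁻ w, ENNReal.ofReal (Real.exp (k * R.card)) *
        (W w * ENNReal.ofReal (‖Gr E.G E.η (fz E.r R w) z b‖ ^ 2)) ∂Measure.pi E.μ := by
        refine lintegral_mono fun w => ?_
        rw [← mul_assoc]
        exact mul_le_mul_left (hW.fz_le E.r hb w) _
    _ ≤ _ := by
        rw [lintegral_const_mul' _ _ ENNReal.ofReal_ne_top]
        refine (mul_le_mul_right h1 _).trans ?_
        rw [← mul_assoc, ← mul_assoc (ENNReal.ofReal (E.Λ z * _))]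
        refine mul_le_mul_left ?_ _
        rw [← ENNReal.ofReal_mul h0.le, ← ENNReal.ofReal_mul (Real.exp_pos _).le,
          ← ENNReal.ofReal_mul (Real.exp_pos _).le, ← ENNReal.ofReal_mul (by positivity)]
        refine ENNReal.ofReal_le_ofReal ?_
        have he : Real.exp k ≤ 3 :=
          (Real.exp_le_exp.2 hW.2.2.1).trans (Real.exp_one_lt_d9.le.trans (by norm_num))
        calc _ = Real.exp k * 8 * (E.Λ z * Real.exp (k * R.card) * E.Λ b) := by ring
          _ ≤ 100 * (E.Λ z * Real.exp (k * R.card) * E.Λ b) := by gcongr; linarith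
          _ = _ := by ring

/-- Thawing one site whose 2-ball is frozen.  Cavity at `o`: `|ρ_x|² ≤ L Im m` for frozen `x ≠ o`,
`|m| ≤ 1 + 4 √(L |m|)` so `|m| ≤ 18 L`; `row` at a neighbour `n` of `o` for the column `o` reads
`w_n ρ_n + ∑_{v ~ n} ρ_v = 0` with `ρ_o = 1`, so some `v ≠ o` in the 2-ball has `|ρ_v| ≥ 1 / (2L)`
and `Im m ≥ 1 / (4 L³)`; `|t / (cl z - m)| ≤ 1 + |cl r - m| / Im m`. -/
lemma thaw_le {R : Finset V} {o x : V} {L : ℝ} (ho : ball E.G o 2 ⊆ R) (hx : x ∈ R)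
    (hne : (nbr E.G o).Nonempty) (hL : ∀ v ∈ R, E.Λ v ≤ L) (w : V → ℂ) :
    ‖Gr E.G E.η (fz E.r (R.erase o) w) x o * (cl (w o) - cl (E.r o))‖ ≤ L ^ 7 := by
  set w' := fz E.r (R.erase o) w with hw'
  obtain ⟨m, ρ, q, h⟩ := exists_cav (G := E.G) E.η0 E.η1 w' o
  have hoR : o ∈ R := ho (self_mem_ball _ _)
  have hL0 : 100 ≤ L := (E.law o).big.trans (hL o hoR)
  have hm : 0 < m.im := E.η0.trans_le h.im_ge
  set a := √(L * m.im) with ha
  have ha0 : 0 ≤ a := Real.sqrt_nonneg _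
  have ha2 : a ^ 2 = L * m.im := Real.sq_sqrt (by positivity)
  have hρ : ∀ v ∈ R, v ≠ o → ‖ρ v‖ ≤ a := fun v hv hvo => by
    have := h.ward1 E.η0 hvo
    rw [hw', fz_mem (mem_erase.2 ⟨hvo, hv⟩)] at this
    exact Real.le_sqrt_of_sq_le (le_of_dmp E (hL v hv) (sq_nonneg _) this)
  have hη : ‖(E.η : ℂ) * I‖ ≤ 1 := by
    rw [norm_mul, norm_I, mul_one, norm_real, Real.norm_of_nonneg E.η0.le]; exact E.η1
  have hno : ∀ n ∈ nbr E.G o, n ≠ o := fun n hn => (mem_nbr.1 hn).ne'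
  have hnR : ∀ n ∈ nbr E.G o, n ∈ R := fun n hn =>
    ho (ball_mono o (by norm_num) (nbr_subset_ball o hn))
  have hm1 : ‖m‖ ≤ 1 + 4 * a := by
    rw [h.m_eq]
    refine (norm_sub_le _ _).trans (add_le_add hη ((norm_sum_le _ _).trans ?_))
    refine (sum_le_card_nsmul _ _ a fun n hn => hρ n (hnR n hn) (hno n hn)).trans ?_
    rw [nsmul_eq_mul]
    have : ((nbr E.G o).card : ℝ) ≤ 4 := by exact_mod_cast E.deg o
    gcongr
  have him : m.im ≤ ‖m‖ := (le_abs_self _).trans (abs_im_le_norm _)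
  have ha5 : a ≤ 5 * L := by
    by_contra hh
    have h1 : L * m.im ≤ L * (1 + 4 * a) := by gcongr; exact him.trans hm1
    nlinarith
  have hlo : 1 ≤ 2 * L * a := by
    obtain ⟨n, hn⟩ := hne
    have hr := row (G := E.G) E.η0 (update w' o 0) n o
    have hne0 := h.ne E.η0 0
    simp only [h.col, if_neg (hno n hn), update_of_ne (hno n hn)] at hr
    rw [← add_sum_erase _ _ (nbr_symm.1 hn), h.rho_self, ← sum_div, hw',
      fz_mem (mem_erase.2 ⟨hno n hn, hnR n hn⟩)] at hr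
    have e : (1 : ℂ) = -((cl (E.r n) - E.η * I) * ρ n + ∑ v ∈ (nbr E.G n).erase o, ρ v) := by
      field_simp at hr
      linear_combination hr
    have h1 : ‖cl (E.r n) - E.η * I‖ ≤ L + 1 :=
      (norm_sub_le _ _).trans (add_le_add
        (by rw [norm_cl]; exact (E.law n).nr.trans (hL n (hnR n hn))) hη)
    have h2 : ‖∑ v ∈ (nbr E.G n).erase o, ρ v‖ ≤ 4 * a := by
      refine (norm_sum_le _ _).trans ((sum_le_card_nsmul _ _ a fun v hv => hρ v (ho ?_)
        (mem_erase.1 hv).1).trans ?_)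
      · exact ball_add (nbr_subset_ball o hn) 1 (nbr_subset_ball n (mem_erase.1 hv).2)
      · rw [nsmul_eq_mul]
        have : (((nbr E.G n).erase o).card : ℝ) ≤ 4 := by
          exact_mod_cast card_erase_le.trans (E.deg n)
        gcongr
    have h3 := congrArg norm e
    rw [norm_one, norm_neg] at h3
    have h4 := norm_add_le ((cl (E.r n) - E.η * I) * ρ n) (∑ v ∈ (nbr E.G n).erase o, ρ v)
    rw [norm_mul] at h4
    have h5 := mul_le_mul h1 (hρ n (hnR n hn) (hno n hn)) (norm_nonneg _) (by linarith)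
    nlinarith
  have hlo2 : 1 ≤ 4 * L ^ 3 * m.im := by
    have : 1 ≤ (2 * L * a) ^ 2 := one_le_pow₀ hlo
    rw [mul_pow, ha2] at this
    linarith
  have hw'o : w' = update w' o (w o) := by
    rw [← fz_notMem (r := E.r) (w := w) (notMem_erase o R), update_eq_self]
  have hρx : ‖ρ x‖ ≤ 5 * L := by
    by_cases hxo : x = o
    · rw [hxo, h.rho_self, norm_one]; linarith
    · exact (hρ x hx hxo).trans ha5
  have hd := im_le_norm (w o) m
  have hd0 : 0 < ‖cl (w o) - m‖ := hm.trans_le hd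
  have ht : ‖cl (w o) - cl (E.r o)‖ ≤ 89 * L ^ 4 * ‖cl (w o) - m‖ := by
    have h1 : ‖cl (w o) - cl (E.r o)‖ ≤ ‖cl (w o) - m‖ + (‖m‖ + ‖cl (E.r o)‖) := by
      rw [← sub_add_sub_cancel _ m]
      exact (norm_add_le _ _).trans (add_le_add le_rfl (norm_sub_le _ _))
    have h2 : ‖cl (E.r o)‖ ≤ L := by rw [norm_cl]; exact (E.law o).nr.trans (hL o hoR)
    have h3 : 22 * L * 1 ≤ 22 * L * (4 * L ^ 3 * ‖cl (w o) - m‖) := by
      gcongr
      exact hlo2.trans (by gcongr)
    have h4 : 1 * ‖cl (w o) - m‖ ≤ L ^ 4 * ‖cl (w o) - m‖ := by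
      gcongr
      exact one_le_pow₀ (by linarith)
    nlinarith
  rw [hw'o, h.col, norm_mul, norm_div, div_mul_eq_mul_div, div_le_iff₀ hd0]
  calc ‖ρ x‖ * ‖cl (w o) - cl (E.r o)‖ ≤ 5 * L * (89 * L ^ 4 * ‖cl (w o) - m‖) := by gcongr
    _ = 445 * L ^ 5 * ‖cl (w o) - m‖ := by ring
    _ ≤ L ^ 2 * L ^ 5 * ‖cl (w o) - m‖ := by gcongr; nlinarith
    _ = _ := by ring

/-- Expansion at the reference, `R₁ = R.erase o`: `resolvent_fz` for `R₁`; for `x ∈ R₁`
`|Im w_o| |G(o,x)|² |t_x|² ≤ (1 + |t_x|²) Im m_x / |cl w_x - m_x|²` integrates to `8 L` over `w x`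
(`lm_site`, `U2.u1`); `resolvent` between `fz R₁ w` and `fz R w` with `thaw_le`; `Temp.le_fz`;
`lint_fz_congr`. -/
lemma expand_le (μ : V → Measure ℂ) [∀ x, IsProbabilityMeasure (μ x)] {W : (V → ℂ) → ℝ≥0∞} {b : V}
    {k : ℝ} (hW : Temp W b k) {R : Finset V} {o : V} {L : ℝ} (hb : b ∉ R)
    (hμ : ∀ x ∉ R, μ x = E.μ x) (ho : ball E.G o 2 ⊆ R) (hne : (nbr E.G o).Nonempty)
    (hu : ∀ x ∈ R.erase o, U2 (μ x) (E.r x) L) (hγ : ∀ᵐ z ∂μ o, |z.im| ≤ L)
    (hL : ∀ v ∈ R, E.Λ v ≤ L) :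
    Rq E.G E.η μ (fun w => ENNReal.ofReal |(w o).im| * W w) o b ≤
      ENNReal.ofReal (L ^ 20 * R.card ^ 2 * Real.exp (k * R.card)) * ∑ x ∈ R, E.Aq W b R x := by
  have hoR : o ∈ R := ho (self_mem_ball _ _)
  have hL0 : 100 ≤ L := (E.law o).big.trans (hL o hoR)
  have hL1 : 1 ≤ L := by linarith
  set g : (V → ℂ) → ℝ≥0∞ := fun w => W w * ENNReal.ofReal (∑ x ∈ R, ‖Gr E.G E.η w x b‖ ^ 2) with hg
  have hgm : Measurable g := hW.1.mul (Finset.measurable_sum _ fun x _ =>
    (measurable_Gr x b).norm.pow_const 2).ennreal_ofReal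
  have ham : Measurable fun w => g (fz E.r R w) := hgm.comp (measurable_fz _ _)
  set f : V → (V → ℂ) → ℝ := fun x w => if x = o then |(w o).im| else
    |(w o).im| * ‖Gr E.G E.η w o x‖ ^ 2 * (1 + ‖cl (w x) - cl (E.r x)‖ ^ 2) with hf
  have hf0 : ∀ x w, 0 ≤ f x w := fun x w => by
    simp only [hf]; split_ifs <;> positivity
  have hfm : ∀ x, Measurable fun w => ENNReal.ofReal (f x w) := fun x => by
    refine Measurable.ennreal_ofReal ?_
    by_cases hx : x = o
    · simp only [hf, if_pos hx]; fun_prop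
    · simp only [hf, if_neg hx]; fun_prop
  -- pointwise expansion
  have hpt : ∀ w, |(w o).im| * ‖Gr E.G E.η w o b‖ ^ 2 ≤ 4 * L ^ 14 * R.card *
      ((∑ x ∈ R, ‖Gr E.G E.η (fz E.r R w) x b‖ ^ 2) * ∑ x ∈ R, f x w) := by
    intro w
    set S := ∑ x ∈ R, ‖Gr E.G E.η (fz E.r R w) x b‖ ^ 2 with hS
    have hS0 : 0 ≤ S := sum_nonneg fun _ _ => sq_nonneg _
    have h2 : ∀ x ∈ R, ‖Gr E.G E.η (fz E.r R w) x b‖ ≤ √S := fun x hx =>
      Real.le_sqrt_of_sq_le (single_le_sum (f := fun x => ‖Gr E.G E.η (fz E.r R w) x b‖ ^ 2)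
        (fun _ _ => sq_nonneg _) hx)
    have h7 : 1 ≤ L ^ 7 := one_le_pow₀ hL1
    have h1 : ∀ x ∈ R, ‖Gr E.G E.η (fz E.r (R.erase o) w) x b‖ ≤ 2 * L ^ 7 * √S := by
      intro x hx
      have e := resolvent_fz (G := E.G) E.η0 E.r (fz E.r (R.erase o) w) {o} x b
      rw [fz_fz, sum_singleton, fz_notMem (notMem_erase o R), ← insert_eq, insert_erase hoR] at e
      rw [e]
      refine (norm_sub_le _ _).trans ?_
      rw [norm_mul]
      have a1 := mul_le_mul (E.thaw_le ho hx hne hL w) (h2 o hoR) (norm_nonneg _) (by positivity)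
      have a2 := h2 x hx
      nlinarith [Real.sqrt_nonneg S]
    set c : V → ℝ := fun x => if x = o then 1 else ‖Gr E.G E.η w o x‖ * ‖cl (w x) - cl (E.r x)‖
      with hc
    have h3 : ‖Gr E.G E.η w o b‖ ≤ 2 * L ^ 7 * √S * ∑ x ∈ R, c x := by
      rw [resolvent_fz (G := E.G) E.η0 E.r w (R.erase o) o b, ← add_sum_erase _ _ hoR, mul_add,
        mul_sum]
      refine (norm_sub_le _ _).trans (add_le_add ?_ ((norm_sum_le _ _).trans
        (sum_le_sum fun x hx => ?_)))
      · simpa [hc] using h1 o hoR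
      · simp only [hc, if_neg (mem_erase.1 hx).1, norm_mul]
        rw [mul_comm]
        exact mul_le_mul_of_nonneg_right (h1 x (mem_erase.1 hx).2) (by positivity)
    have h4 : |(w o).im| * (∑ x ∈ R, c x) ^ 2 ≤ R.card * ∑ x ∈ R, f x w := by
      refine (mul_le_mul_of_nonneg_left sq_sum_le_card_mul_sum_sq (abs_nonneg _)).trans ?_
      rw [mul_left_comm, mul_sum]
      refine mul_le_mul_of_nonneg_left (sum_le_sum fun x _ => ?_) (Nat.cast_nonneg _)
      simp only [hc, hf]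
      split_ifs
      · simp
      · rw [mul_pow, mul_assoc]
        gcongr
        linarith
    calc |(w o).im| * ‖Gr E.G E.η w o b‖ ^ 2
        ≤ |(w o).im| * (2 * L ^ 7 * √S * ∑ x ∈ R, c x) ^ 2 := by gcongr
      _ = 4 * L ^ 14 * S * (|(w o).im| * (∑ x ∈ R, c x) ^ 2) := by
          rw [mul_pow, mul_pow, Real.sq_sqrt hS0]; ring
      _ ≤ 4 * L ^ 14 * S * (R.card * ∑ x ∈ R, f x w) := by gcongr
      _ = _ := by ring
  -- one-site integrals
  have hsite : ∀ x ∈ R, ∫⁻ w, g (fz E.r R w) * ENNReal.ofReal (f x w) ∂Measure.pi μ ≤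
      ENNReal.ofReal (8 * L) * ∫⁻ w, g (fz E.r R w) ∂Measure.pi μ := by
    intro x hx
    have := site_bd μ ham (hfm x) x (c₁ := 1) (c₂ := ENNReal.ofReal (8 * L))
      (fun w z => by rw [fz_update_mem _ _ hx, one_mul]) fun w => ?_
    · rwa [one_mul] at this
    by_cases hxo : x = o
    · subst hxo
      simp only [hf, if_true, update_self]
      refine (lintegral_mono_ae (g := fun _ => ENNReal.ofReal (8 * L))
        (hγ.mono fun z hz => ENNReal.ofReal_le_ofReal (by linarith))).trans ?_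
      simp
    · simp only [hf, if_neg hxo, update_self, update_of_ne (Ne.symm hxo)]
      exact col_bd E (hu x (mem_erase.2 ⟨hxo, hx⟩)) (by linarith) w (Ne.symm hxo) (im_le_dmp E _)
  have hA : ∫⁻ w, g (fz E.r R w) ∂Measure.pi μ = ∑ x ∈ R, E.Aq W b R x := by
    rw [lint_fz_congr μ E.μ E.r R hμ hgm]
    simp only [hg, Aq]
    rw [← lintegral_finsetSum]
    · congr 1; funext w
      rw [ENNReal.ofReal_sum_of_nonneg fun _ _ => sq_nonneg _, mul_sum]
    · exact fun x _ => (hW.1.comp (measurable_fz _ _)).mul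
        (((measurable_Gr x b).comp (measurable_fz _ _)).norm.pow_const 2).ennreal_ofReal
  calc Rq E.G E.η μ (fun w => ENNReal.ofReal |(w o).im| * W w) o b
      ≤ ∫⁻ w, ENNReal.ofReal (4 * L ^ 14 * R.card * Real.exp (k * R.card)) *
          ∑ x ∈ R, g (fz E.r R w) * ENNReal.ofReal (f x w) ∂Measure.pi μ := by
        refine lintegral_mono fun w => ?_
        rw [mul_right_comm, ← ENNReal.ofReal_mul (abs_nonneg _)]
        refine (mul_le_mul' (ENNReal.ofReal_le_ofReal (hpt w)) (hW.le_fz E.r hb w)).trans_eq ?_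
        rw [← mul_sum, ← ENNReal.ofReal_sum_of_nonneg fun x _ => hf0 x w,
          ENNReal.ofReal_mul (p := 4 * L ^ 14 * R.card) (by positivity),
          ENNReal.ofReal_mul (p := 4 * L ^ 14 * R.card) (by positivity),
          ENNReal.ofReal_mul (p := ∑ x ∈ R, _) (by positivity)]
        simp only [hg]
        ring
    _ ≤ ENNReal.ofReal (4 * L ^ 14 * R.card * Real.exp (k * R.card)) *
          (R.card • (ENNReal.ofReal (8 * L) * ∑ x ∈ R, E.Aq W b R x)) := by
        rw [lintegral_const_mul' _ _ ENNReal.ofReal_ne_top,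
          lintegral_finsetSum (f := fun x w => g (fz E.r R w) * ENNReal.ofReal (f x w)) _
            fun x _ => ham.mul (hfm x), ← hA]
        exact mul_le_mul_right (sum_le_card_nsmul _ _ _ hsite) _
    _ ≤ _ := by
        rw [nsmul_eq_mul, ← ENNReal.ofReal_natCast, ← mul_assoc, ← mul_assoc,
          ← ENNReal.ofReal_mul (by positivity), ← ENNReal.ofReal_mul (by positivity)]
        refine mul_le_mul_left (ENNReal.ofReal_le_ofReal ?_) _
        have h5 : 32 ≤ L ^ 5 := le_trans (by linarith) (le_self_pow₀ hL1 (by norm_num))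
        calc _ = 32 * (L ^ 15 * R.card ^ 2 * Real.exp (k * R.card)) := by ring
          _ ≤ L ^ 5 * (L ^ 15 * R.card ^ 2 * Real.exp (k * R.card)) := by gcongr
          _ = _ := by ring

/-- LC: `expand_le` with `R = ball y ρ`, then `tl` from every `x ∈ R` with `x₀ = y`, `inv_ball`,
`a₀ = L⁻²` (`diag_ge`), `κ ≤ 3 log L` -/
theorem lc (μ : V → Measure ℂ) [∀ x, IsProbabilityMeasure (μ x)] {W : (V → ℂ) → ℝ≥0∞} {b : V}
    {k : ℝ} (hW : Temp W b k) {y o : V} {ρ D : ℕ} {L n lam : ℝ} {Bb : ℝ≥0∞} (hρ : 1 ≤ ρ)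
    (hb : b ∉ ball E.G y (ρ + 3 * D)) (hμ : ∀ x ∉ ball E.G y ρ, μ x = E.μ x)
    (ho : ball E.G o 2 ⊆ ball E.G y ρ) (hne : (nbr E.G o).Nonempty)
    (hu : ∀ x ∈ (ball E.G y ρ).erase o, U2 (μ x) (E.r x) L) (hγ : ∀ᵐ z ∂μ o, |z.im| ≤ L)
    (hL : ∀ v ∈ ball E.G y ρ, E.Λ v ≤ L) (hn : ((ball E.G y ρ).card : ℝ) ≤ n) (hg : E.Grow y lam)
    (hB : E.HB W b k (ball E.G y ρ) Bb) :
    Rq E.G E.η μ (fun w => ENNReal.ofReal |(w o).im| * W w) o b ≤
      ENNReal.ofReal (L ^ 24 * n ^ 3 *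
        Real.exp (2 * k * n + 36 * n * Real.log L + 3000 * lam * (ρ + 4004) ^ 2)) *
          Rq E.G E.η E.μ W y b +
      ENNReal.ofReal (L ^ 20 * n ^ 3 *
        Real.exp (2 * k * n + 30 * lam * (ρ + 4004) - lam * D ^ 2)) * Bb := by
  set R := ball E.G y ρ with hR
  have hyR : y ∈ R := self_mem_ball _ _
  have hL0 : 100 ≤ L := (E.law y).big.trans (hL y hyR)
  have hbR : b ∉ R := fun h => hb (ball_mono y (by omega) h)
  have hn0 : 0 ≤ n := (Nat.cast_nonneg _).trans hn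
  have hk := hW.2.1
  have hκ : ∑ x ∈ R, E.κ x ≤ n * (3 * Real.log L) := by
    refine (sum_le_card_nsmul _ _ (3 * Real.log L) fun x hx => (E.law x).kle.trans ?_).trans ?_
    · have : 0 < E.Λ x := by linarith [(E.law x).big]
      gcongr
      exact hL x hx
    · rw [nsmul_eq_mul]
      have := Real.log_nonneg (by linarith : 1 ≤ L)
      gcongr
  have hT : ∀ x ∈ R, E.Aq W b R x ≤
      ENNReal.ofReal (L ^ 4 *
        Real.exp (k * n + 36 * n * Real.log L + 3000 * lam * (ρ + 4004) ^ 2)) *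
          Rq E.G E.η E.μ W y b +
      ENNReal.ofReal (Real.exp (k * n + 30 * lam * (ρ + 4004) - lam * D ^ 2)) * Bb := by
    intro x hx
    refine (E.tl hW (y := y) (D := D) (a₀ := (L ^ 2)⁻¹) (inv_ball hx) hbR
      (fun h => hb (ball_add hx _ h)) hg (by positivity) (fun w => ?_) hB).trans ?_
    · refine diag_ge E.deg E.η0 E.η1 hL0 ?_ fun v hv => ?_
      · rw [fz_mem hyR]; exact (E.law y).nr.trans (hL y hyR)
      · have hv' : v ∈ R := ball_mono y hρ (nbr_subset_ball y hv)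
        rw [fz_mem hv']; exact inv_le_dmp E (hL v hv')
    · have h1 : k * R.card ≤ k * n := by gcongr
      gcongr
      rw [inv_pow, div_inv_eq_mul, mul_comm, ← pow_mul]
      exact mul_le_mul_of_nonneg_left (Real.exp_le_exp.2 (by linarith)) (by positivity)
  refine (E.expand_le μ hW hbR hμ ho hne hu hγ hL).trans ?_
  refine (mul_le_mul' (ENNReal.ofReal_le_ofReal (q := L ^ 20 * n ^ 2 * Real.exp (k * n))
    (by gcongr)) (sum_le_card_nsmul _ _ _ hT)).trans ?_
  rw [nsmul_eq_mul, ← ENNReal.ofReal_natCast]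
  refine (mul_le_mul_right (mul_le_mul_left (ENNReal.ofReal_le_ofReal hn) _) _).trans_eq ?_
  rw [← mul_assoc, ← ENNReal.ofReal_mul (by positivity), mul_add, ← mul_assoc, ← mul_assoc,
    ← ENNReal.ofReal_mul (by positivity), ← ENNReal.ofReal_mul (by positivity)]
  congr 3
  · rw [show 2 * k * n + 36 * n * Real.log L + 3000 * lam * (ρ + 4004) ^ 2 =
      k * n + (k * n + 36 * n * Real.log L + 3000 * lam * (ρ + 4004) ^ 2) by ring,
      Real.exp_add (k * n) (_ + _)]
    ring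
  · rw [show 2 * k * n + 30 * lam * (ρ + 4004) - lam * D ^ 2 =
      k * n + (k * n + 30 * lam * (ρ + 4004) - lam * D ^ 2) by ring, Real.exp_add (k * n) (_ - _)]
    ring

end Env

end Crest.Agent.N334.T
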